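import Vale.Agent.P211.Cert.Contact.Cover

/-!
P211, the contact condition on `g ≤ f` from a family of checked charts.
-/

namespace Vale.Agent.P211.Cert.Contact

open Chart

noncomputable section

variable {V : Vec} {c : Case} {f g A H φ : ℝ}

lemma near_cover (hgf : g ≤ f) (hf : f ≤ 11 / 10) (hg : 0 ≤ g) (hA : 0 ≤ A)
    (hc : f ^ 3 + g ^ 3 = 2) :
    f = 1 ∧ g = 1 ∧ A = 0 ∨ Hit near1 f g A ∨ Hit near2 f g A ∨ Hit near3 f g A := by
  obtain ⟨hs0, hs1, hlo, hhi⟩ := nu_band hgf hf hg hc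
  have hg' : g ≤ 11 / 10 := hgf.trans hf
  set s := 2 - f - g with hs
  set r := √s with hrdef
  have hr0 : 0 ≤ r := Real.sqrt_nonneg _
  have hr2 : r ^ 2 = s := Real.sq_sqrt hs0
  have hrT : r ≤ 4 / 25 := by
    have : s ≤ (4 / 25) ^ 2 := by norm_num [rTop] at hs1 ⊢; exact hs1
    exact Real.sqrt_le_iff.2 ⟨by norm_num, this⟩
  obtain ⟨t, t0, t1, ht⟩ : ∃ t : ℝ, 0 ≤ t ∧ t ≤ 1 ∧
      f - g = r * (nuLo + (nuHi - nuLo) * t) := by
    rcases eq_or_lt_of_le hr0 with hr | hr
    · refine ⟨0, le_rfl, zero_le_one, ?_⟩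
      rw [← hr] at hlo hhi ⊢
      simp only [mul_zero, zero_mul] at hlo hhi ⊢
      linarith
    · refine ⟨((f - g) / r - nuLo) / (nuHi - nuLo), ?_, ?_, ?_⟩
      · exact div_nonneg (sub_nonneg.2 ((le_div_iff₀ hr).2 hlo)) (by norm_num [nuLo, nuHi])
      · rw [div_le_one (by norm_num [nuLo, nuHi]), sub_le_sub_iff_right]
        exact (div_le_iff₀ hr).2 hhi
      · have : (nuHi : ℝ) - nuLo ≠ 0 := by norm_num [nuLo, nuHi]
        field_simp
        ring
  rcases le_or_gt (1 / 16) A with hA3 | hA3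
  · let v := A - 1 / 16
    have hv : 0 ≤ v := sub_nonneg.2 hA3
    let p : Fin 4 → ℝ := ![r / (4 / 25), t, 0, v / (1 + v)]
    have hp : ∀ i, p i ∈ Set.Icc (0 : ℝ) 1 := by
      intro i; fin_cases i <;> simp [p]
      · exact ⟨by positivity, by rw [div_le_one (by norm_num)]; exact hrT⟩
      · exact ⟨t0, t1⟩
      · exact ⟨by positivity, (div_le_one (by linarith)).2 (by linarith)⟩
    have hp3 : p 3 < 1 := by simp [p]; rw [div_lt_one (by linarith)]; linarith
    have h := isLitHom_val hp3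
    have hv3 : p 3 / (1 - p 3) = v := by
      have : (1 : ℝ) + v ≠ 0 := by linarith
      simp [p]; field_simp; ring
    refine Or.inr (Or.inr (Or.inr (cubeSpec_hit hp hp3 ?_ hf hg' hc ?_)))
    · constructor
      all_goals simp only [Env.map, h.add, h.mul, h.lit, val_lin p hp3, val_var_three, hv3,
        ne_eq, Fin.reduceEq, not_false_eq_true]
      all_goals simp [p, v, Lit.lit, rTop, kapR_eq]
      · rw [ht]; ring
      · rw [← hs, ← hr2]; ring
    · simp [Env.map, Lit.lit, val_cst]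
  rcases eq_or_lt_of_le hA with hA0 | hApos
  · rcases eq_or_lt_of_le hr0 with hr | hr
    · rw [← hr] at ht hr2
      have ef : f = 1 := by linarith
      have eg : g = 1 := by linarith
      exact Or.inl ⟨ef, eg, hA0.symm⟩
    · exact Or.inr (Or.inl (near_low hf hg' hc hr hrT t0 t1 hr2 ht hA (by nlinarith)))
  rcases le_or_gt A (r ^ 2 / 4) with hA1 | hA1
  · rcases eq_or_lt_of_le hr0 with hr | hr
    · rw [← hr] at hA1; linarith
    · exact Or.inr (Or.inl (near_low hf hg' hc hr hrT t0 t1 hr2 ht hA hA1))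
  · set ρ := √A with hρdef
    have hρ : 0 < ρ := Real.sqrt_pos.2 hApos
    have hρ2 : ρ ^ 2 = A := Real.sq_sqrt hA
    have hρ1 : ρ ≤ 1 / 4 := Real.sqrt_le_iff.2 ⟨by norm_num, by linarith⟩
    have hrρ : r ≤ 2 * ρ := by nlinarith
    let p : Fin 4 → ℝ := ![4 * ρ, t, r / ρ / 2, 0]
    have hp : ∀ i, p i ∈ Set.Icc (0 : ℝ) 1 := by
      intro i; fin_cases i <;> simp [p]
      · exact ⟨hρ.le, by linarith⟩
      · exact ⟨t0, t1⟩
      · exact ⟨by positivity, by rw [div_div, div_le_one (by positivity)]; linarith⟩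
    have hp3 : p 3 < 1 := by simp [p]
    have h := isLitHom_val hp3
    refine Or.inr (Or.inr (Or.inl (cubeSpec_hit hp hp3 ?_ hf hg' hc ?_)))
    · constructor
      all_goals simp only [Env.map, h.mul, h.lit, val_lin p hp3, ne_eq, Fin.reduceEq,
        not_false_eq_true]
      all_goals simp [p, Lit.lit, kapR_eq]
      · rw [ht]; field_simp
      · rw [← hs, ← hr2]; field_simp
      · exact hρ2.symm
    · simp only [Env.map, val_lin p hp3, ne_eq, Fin.reduceEq, not_false_eq_true]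
      simp [p]
      exact hρ.ne'
where
  near_low {r t : ℝ} (hf : f ≤ 11 / 10) (hg' : g ≤ 11 / 10) (hc : f ^ 3 + g ^ 3 = 2) (hr : 0 < r)
      (hrT : r ≤ 4 / 25) (t0 : 0 ≤ t) (t1 : t ≤ 1) (hr2 : r ^ 2 = 2 - f - g)
      (ht : f - g = r * (nuLo + (nuHi - nuLo) * t)) (hA : 0 ≤ A) (hA1 : A ≤ r ^ 2 / 4) :
      Hit near1 f g A := by
    let p : Fin 4 → ℝ := ![r / (4 / 25), t, 4 * A / r ^ 2, 0]
    have hp : ∀ i, p i ∈ Set.Icc (0 : ℝ) 1 := by
      intro i; fin_cases i <;> simp [p]
      · exact ⟨by positivity, by rw [div_le_one (by norm_num)]; exact hrT⟩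
      · exact ⟨t0, t1⟩
      · exact ⟨by positivity, by rw [div_le_one (by positivity)]; linarith⟩
    have hp3 : p 3 < 1 := by simp [p]
    have h := isLitHom_val hp3
    refine cubeSpec_hit hp hp3 ?_ hf hg' hc ?_
    · constructor
      all_goals simp only [Env.map, h.lit, val_lin p hp3, ne_eq, Fin.reduceEq, not_false_eq_true]
      all_goals simp [p, Lit.lit, rTop, kapR_eq]
      · rw [ht]; ring
      · rw [← hr2]; ring
      · field_simp
    · simp only [Env.map, val_lin p hp3, ne_eq, Fin.reduceEq, not_false_eq_true]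
      simp [p, rTop]
      exact hr.ne'

/-- Consecutive segments from `lo` reach `hi`. -/
def chainOK (lo hi : ℚ) : List Seg → Bool
  | [] => decide (hi ≤ lo)
  | S :: l => decide (S.a ≤ lo) && S.ok && chainOK S.b hi l

lemma chain_find : ∀ {l : List Seg} {lo hi : ℚ}, chainOK lo hi l = true → ∀ x : ℝ, (lo : ℝ) ≤ x →
    x ≤ hi → (∃ S ∈ l, (S.a : ℝ) ≤ x ∧ x ≤ S.b ∧ S.ok = true) ∨ (l = [] ∧ x = lo)
  | [], lo, hi, h, x, h0, h1 => by
    simp only [chainOK, decide_eq_true_eq] at h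
    exact Or.inr ⟨rfl, le_antisymm (h1.trans (Rat.cast_le.2 h)) h0⟩
  | S :: l, lo, hi, h, x, h0, h1 => by
    simp only [chainOK, Bool.and_eq_true, decide_eq_true_eq] at h
    obtain ⟨⟨ha, hok⟩, hl⟩ := h
    refine Or.inl ?_
    rcases le_or_gt x (S.b : ℝ) with hx | hx
    · exact ⟨S, List.mem_cons_self, (Rat.cast_le.2 ha).trans h0, hx, hok⟩
    · rcases chain_find hl x hx.le h1 with ⟨T, hT, h'⟩ | ⟨-, he⟩
      · exact ⟨T, List.mem_cons_of_mem _ hT, h'⟩
      · exact absurd he hx.ne'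

theorem segs_chain : chainOK (1 / 16) (7 / 8) segs = true := by decide +kernel

lemma seg_cover {S : Seg} {fFull : Bool} (hok : S.ok = true) (ha : (S.a : ℝ) ≤ g) (hb : g ≤ S.b)
    (hf : 11 / 10 ≤ f) (f2 : f ≤ 141 / 100) (hg : g ≤ 11 / 10) (hc : qHi f + g ^ 3 = 2)
    (hfull : fFull = false → f ^ 3 ≤ 2) (hA : 0 ≤ A) : Hit (farMid S fFull) f g A := by
  obtain ⟨h1, h2⟩ := S.mem hok ha hb (by linarith) f2 hc
  simp only [Seg.ok, Bool.and_eq_true, decide_eq_true_eq] at hok
  have hab : (0 : ℝ) < S.b - S.a := sub_pos.2 (Rat.cast_lt.2 hok.1.1.1.1.1)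
  have hh : (0 : ℝ) < S.h := Rat.cast_pos.2 hok.1.1.1.1.2
  let p : Fin 4 → ℝ :=
    ![(g - S.a) / (S.b - S.a), (f - S.lo - S.sl * (g - S.a)) / S.h, 0, A / (1 + A)]
  have hp : ∀ i, p i ∈ Set.Icc (0 : ℝ) 1 := by
    intro i; fin_cases i <;> simp [p]
    · exact ⟨div_nonneg (by linarith) hab.le, (div_le_one hab).2 (by linarith)⟩
    · exact ⟨div_nonneg (by linarith) hh.le, (div_le_one hh).2 (by linarith)⟩
    · exact ⟨by positivity, (div_le_one (by linarith)).2 (by linarith)⟩
  have hp3 : p 3 < 1 := by simp [p]; rw [div_lt_one (by linarith)]; linarith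
  have h := isLitHom_val hp3
  have eG : val p (lin 0 S.a S.b) = g := by
    simp [val_lin p hp3, p]; field_simp; ring
  have eF : val p S.fP = f := by
    simp [Seg.fP, h.add, h.mul, val_cst, val_var, p, Lit.lit]
    field_simp
    ring
  have eA : val p (var 3) = A := by
    rw [val_var_three]
    have : (1 : ℝ) + A ≠ 0 := by linarith
    simp [p]; field_simp; ring
  have econ : val p (qHi S.fP + npw (lin 0 S.a S.b) 3 + Lit.lit (-2)) = 0 := by
    have e : val p (qHi S.fP) = qHi f := by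
      simp only [qHi, h.add, h.mul, h.lit, h.npw, eF]
    rw [h.add, h.add, h.npw, h.lit, e, eG, npw_real]
    simp only [Lit.lit]
    push_cast
    linarith
  exact farSpec_hit hp hp3 eF eG eA econ hf hg hfull

lemma corner_cover {fFull : Bool} (hg0 : 0 ≤ g) (hg : g ≤ 1 / 16) (hf : 11 / 10 ≤ f)
    (f2 : f ≤ 141 / 100) (hc : qLev f + qLev g = 2) (hfull : fFull = false → f ^ 3 ≤ 2)
    (hA : 0 ≤ A) :
    Hit (corner1 fFull) f g A ∨ Hit (corner2 fFull) f g A ∨ Hit (corner3 fFull) f g A := by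
  have hg' : g ≤ 11 / 10 := by linarith
  have hq : qHi f + g ^ 3 = 2 := by rw [← (level_hi hf).1, ← (level_lo hg').1, hc]
  have hend : qHi (158 / 125 : ℝ) = 2 := by
    simp only [qHi, npw_real, Lit.lit, gamR, swR]; norm_num
  have hfm : f ≤ 158 / 125 := by
    by_contra hlt
    push Not at hlt
    have h1 := qHi_le (show (1 : ℝ) ≤ 158 / 125 by norm_num) hlt.le f2
    rcases h1.lt_or_eq with h1 | h1
    · nlinarith [pow_nonneg hg0 3]
    · exact Seg.mem.qHi_ne (show (1 : ℝ) ≤ 158 / 125 by norm_num) hlt f2 h1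
  have hlow : 158 / 125 - g / 1000 ≤ f := by
    by_contra hlt
    push Not at hlt
    have hg1000 : g / 1000 ≤ 1 / 16000 := by linarith
    have h1 := qHi_le (show (1 : ℝ) ≤ f by linarith) hlt.le (by linarith)
    have e : qHi (158 / 125 - g / 1000) + g ^ 3 ≤ 2 := by
      simp only [qHi, npw_real, Lit.lit, gamR, swR]
      push_cast
      nlinarith [mul_nonneg hg0 (sub_nonneg.2 hg), mul_nonneg (mul_nonneg hg0 hg0) (sub_nonneg.2 hg)]
    have h2 := Seg.mem.qHi_ne (show (1 : ℝ) ≤ f by linarith) hlt (by linarith)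
    rcases h1.lt_or_eq with h1 | h1
    · linarith
    · exact h2 h1
  obtain ⟨z, z0, z1, hz, hzz⟩ :
      ∃ z : ℝ, 0 ≤ z ∧ z ≤ 1 ∧ f = 158 / 125 - z / 1000 * g ∧ (g = 0 → z = 0) := by
    rcases eq_or_lt_of_le hg0 with hg00 | hg00
    · exact ⟨0, le_rfl, zero_le_one, by rw [← hg00] at hlow; linarith, fun _ => rfl⟩
    · exact ⟨(158 / 125 - f) * 1000 / g, div_nonneg (by linarith) hg00.le,
        by rw [div_le_one hg00]; linarith, by field_simp; ring, fun h => absurd h hg00.ne'⟩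
  have hcon : farCon (z / 1000) g = 0 := by
    rcases eq_or_lt_of_le hg0 with hg00 | hg00
    · have hz0 : z = 0 := hzz hg00.symm
      rw [← hg00, hz0]
      simp [farCon, Lit.lit]
    · have hF : farF (z / 1000) g = f := by
        rw [hz]; simp only [farF, Lit.lit, endR]; push_cast; ring
      have e := farCon_eq hg' (hF.symm ▸ hf)
      rw [hF, hc, sub_self] at e
      have := neg_eq_zero.1 e.symm
      exact (mul_eq_zero.1 this).resolve_left hg00.ne'
  have spec : ∀ {G' A' : HP} {p : Fin 4 → ℝ}, (∀ i, p i ∈ Set.Icc (0 : ℝ) 1) → p 3 < 1 →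
      p 1 = z → val p G' = g → val p A' = A → Hit (endSpec G' A' fFull) f g A := by
    intro G' A' p hp hp3 hp1 eG eA
    have h := isLitHom_val hp3
    have ez : val p (lin 1 0 zetaEnd) = z / 1000 := by
      simp [val_lin p hp3, hp1, zetaEnd]; ring
    refine farSpec_hit hp hp3 ?_ eG eA ?_ hf hg' hfull
    · rw [map_farF h, ez, eG, hz]
      simp only [farF, Lit.lit, endR]; push_cast; ring
    · rw [map_farCon h, ez, eG, hcon]
  rcases le_or_gt A g with hAg | hAg
  · rcases eq_or_lt_of_le hg0 with hg00 | hg00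
    · refine Or.inl (spec (p := ![0, z, 0, 0]) (fun i => by fin_cases i <;> simp [z0, z1]) (by simp)
        (by simp) ?_ ?_)
      · rw [val_lin _ (by simp) (by decide)]; simp [← hg00]
      · rw [val_mul, val_lin _ (by simp) (by decide)]; simp [cornerR]; linarith
    · refine Or.inl (spec (p := ![16 * g, z, A / g, 0]) (fun i => ?_) (by simp) (by simp) ?_ ?_)
      · fin_cases i <;> simp [z0, z1]
        · exact ⟨hg0, by linarith⟩
        · exact ⟨by positivity, (div_le_one hg00).2 hAg⟩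
      · rw [val_lin _ (by simp) (by decide)]; simp [cornerR]
      · rw [val_mul, val_lin _ (by simp) (by decide)]; simp [val_var, cornerR]; field_simp
  rcases le_or_gt A (1 / 16) with hA1 | hA1
  · have hA0 : 0 < A := lt_of_le_of_lt hg0 hAg
    refine Or.inr (Or.inl (spec (p := ![16 * A, z, g / A, 0]) (fun i => ?_) (by simp) (by simp) ?_ ?_))
    · fin_cases i <;> simp [z0, z1]
      · exact ⟨hA, by linarith⟩
      · exact ⟨by positivity, (div_le_one hA0).2 hAg.le⟩
    · rw [val_mul, val_lin _ (by simp) (by decide)]; simp [val_var, cornerR]; field_simp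
    · rw [val_lin _ (by simp) (by decide)]; simp [cornerR]
  · let v := A - 1 / 16
    have hv : 0 ≤ v := by simp only [v]; linarith
    have hp3 : (![16 * g, z, 0, v / (1 + v)] : Fin 4 → ℝ) 3 < 1 := by
      simp; rw [div_lt_one (by linarith)]; linarith
    refine Or.inr (Or.inr (spec (p := ![16 * g, z, 0, v / (1 + v)]) (fun i => ?_) hp3 (by simp) ?_ ?_))
    · fin_cases i <;> simp [z0, z1]
      · exact ⟨hg0, by linarith⟩
      · exact ⟨by positivity, (div_le_one (by linarith)).2 (by linarith)⟩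
    · rw [val_lin _ hp3 (by decide)]; simp [cornerR]
    · rw [val_add hp3, val_var_three, val_lit]
      have : (1 : ℝ) + v ≠ 0 := by linarith
      have e : v / (1 + v) / (1 - v / (1 + v)) = v := by field_simp; ring
      simp [cornerR, Lit.lit]
      rw [e]
      simp [v]

/-- The right hand side is at most the one with the weight of a segment. -/
lemma target_le_seg {S : Seg} (hg : g ≤ S.b) (hA : 0 ≤ A) :
    target rhoV f g A ≤
      (((if S.b ≤ 3 / 5 then (0 : ℚ) else 1) : ℚ) : ℝ) * (A + (f - g) ^ 2) ^ 4 * (1 + A) ^ 2 := by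
  split_ifs with h
  · have hb : (S.b : ℝ) ≤ 3 / 5 := le_of_le_of_eq (Rat.cast_le.2 h) (by push_cast; ring)
    rw [target_band (Or.inr (hg.trans hb))]
    simp
  · simpa using target_le_one f g hA

lemma hDnear (hf : f ≤ 11 / 10) (hgf : g ≤ f) (hg : 0 ≤ g) (hc : f ^ 3 + g ^ 3 = 2) :
    0 < eLev f + eLev g := by
  rw [(level_lo hf).2.1, (level_lo (hgf.trans hf)).2.1]
  rcases eq_or_ne f 0 with rfl | hf0
  · nlinarith [sq_nonneg g]
  · positivity

/-- The contact condition on `g ≤ f` from a family of checked charts. -/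
theorem contact_of_family (F : Family V) (f g A al be : ℝ) (hbox : InBox f g A) (hgf : g ≤ f)
    (hc : qLev f + qLev g = 2) (hcase : ContactCase f g al be) (H φ : ℝ) (hφ : 0 ≤ φ) :
    target rhoV f g A ≤ contactForm V f g A A al be H φ := by
  obtain ⟨f0, f2, g0, g2, hA⟩ := hbox
  rcases le_or_gt f (11 / 10) with hf | hf
  · have hc3 : f ^ 3 + g ^ 3 = 2 := by
      rw [← (level_lo hf).1, ← (level_lo (hgf.trans hf)).1, hc]
    have hz : ∃ z ∈ [((1 : ℚ), (1 : ℚ)), (0, 1), (1, 0)], (z.1 : ℝ) = al ∧ (z.2 : ℝ) = be := by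
      rcases hcase with ⟨rfl, rfl⟩ | ⟨rfl, rfl, -⟩ | ⟨rfl, rfl, -⟩
      · exact ⟨(1, 1), by simp, by simp⟩
      · exact ⟨(0, 1), by simp, by simp⟩
      · exact ⟨(1, 0), by simp, by simp⟩
    obtain ⟨z, hz, rfl, rfl⟩ := hz
    obtain ⟨n1, n2, n3⟩ := F.near z hz
    refine (target_le_one f g hA).trans ?_
    rcases near_cover hgf hf g0 hA hc3 with ⟨rfl, rfl, rfl⟩ | h | h | h
    · rw [contact_point F.weight]; norm_num
    · simpa using h.apply F.weight n1 (hDnear hf hgf g0 hc3) H φ hφ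
    · simpa using h.apply F.weight n2 (hDnear hf hgf g0 hc3) H φ hφ
    · simpa using h.apply F.weight n3 (hDnear hf hgf g0 hc3) H φ hφ
  have hg : g ≤ 11 / 10 := by
    by_contra hg
    push Not at hg
    have := qLev_high hg.le g2
    have := qLev_high hf.le f2
    linarith
  have hq : qHi f + g ^ 3 = 2 := by rw [← (level_hi hf.le).1, ← (level_lo hg).1, hc]
  have hg78 : g ≤ 7 / 8 := far_g_le hf.le f2 hq
  have hD : 0 < eLev f + eLev g :=
    add_pos_of_pos_of_nonneg (eLev_pos (by linarith) f2) (eLev_nonneg g0 g2)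
  have hlow : f ^ 3 ≤ 2 → 1 / 4 < g := by
    intro h3
    by_contra hg14
    push Not at hg14
    have hf63 : f ≤ 63 / 50 := by
      by_contra hlt
      push Not at hlt
      linarith [pow_le_pow_left₀ (show (0 : ℝ) ≤ 63 / 50 by norm_num) hlt.le 3]
    simp only [qHi, npw_real, Lit.lit, gamR, swR] at hq
    push_cast at hq
    have hg3 := pow_le_pow_left₀ g0 hg14 3
    rcases le_or_gt f (1255 / 1000) with h5 | h5
    · nlinarith [pow_le_pow_left₀ f0 h5 3, pow_nonneg (show 0 ≤ f + -(11 / 10) by linarith) 3]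
    · nlinarith [pow_le_pow_left₀ (show (0 : ℝ) ≤ 155 / 1000 by norm_num)
        (show 155 / 1000 ≤ f + -(11 / 10) by linarith) 3]
  rcases le_or_gt g (1 / 16) with hgc | hgc
  · rw [target_band (Or.inr (hgc.trans (by norm_num)))]
    have hbe : al = 1 ∧ ∃ b ∈ [(1 : ℚ), 0], (b : ℝ) = be := by
      rcases hcase with ⟨rfl, rfl⟩ | ⟨rfl, rfl, h3⟩ | ⟨rfl, rfl, -⟩
      · exact ⟨rfl, 1, by simp, by simp⟩
      · linarith [hlow h3]
      · exact ⟨rfl, 0, by simp, by simp⟩
    obtain ⟨rfl, b, hb, rfl⟩ := hbe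
    obtain ⟨c1, c2, c3⟩ := F.corner b hb
    rcases corner_cover (fFull := true) g0 hgc hf.le f2 hc (by simp) hA with h | h | h
    · simpa using h.apply F.weight c1 hD H φ hφ
    · simpa using h.apply F.weight c2 hD H φ hφ
    · simpa using h.apply F.weight c3 hD H φ hφ
  obtain ⟨S, hS, ha, hb, hok⟩ : ∃ S ∈ segs, (S.a : ℝ) ≤ g ∧ g ≤ S.b ∧ S.ok = true := by
    rcases chain_find segs_chain g (by push_cast; linarith) (by push_cast; linarith) with h | ⟨h, -⟩
    · exact h
    · simp [segs] at h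
  refine (target_le_seg hb hA).trans ?_
  rcases hcase with ⟨rfl, rfl⟩ | ⟨rfl, rfl, h3⟩ | ⟨rfl, rfl, -⟩
  · simpa using (seg_cover hok ha hb hf.le f2 hg hq (by simp) hA).apply F.weight
      (F.segFull S hS 1 (by simp)) hD H φ hφ
  · have hS4 : 1 / 4 < S.b := by
      have := (hlow h3).trans_le hb
      rw [← Rat.cast_lt (K := ℝ)]
      push_cast
      exact this
    simpa using (seg_cover hok ha hb hf.le f2 hg hq (fun _ => h3) hA).apply F.weight
      (F.segPart S hS hS4) hD H φ hφ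
  · simpa using (seg_cover hok ha hb hf.le f2 hg hq (by simp) hA).apply F.weight
      (F.segFull S hS 0 (by simp)) hD H φ hφ

end

end Vale.Agent.P211.Cert.Contact
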