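import Vale.Agent.P211.Cert.Contact.Geometry

/-!
P211, the contact charts (`g ≤ f`): three near the common point `(1, 1)` on the cube piece, and the
piece `11 / 10 ≤ f`, written as `f = 158 / 125 - ζ g`, with three charts at its end.
-/

namespace Vale.Agent.P211.Cert.Contact

open Chart

/-- The affine variable of an axis on `[a, b]`. -/
def lin (i : Fin 4) (a b : ℚ) : HP := Lit.lit a + Lit.lit (b - a) * var i

/-- A chart: the scaled point, the geometry, quantities that are nonnegative on the domain, and a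
force `sh` from which the force is counted (then of any sign). -/
structure Spec where
  E : Env HP
  G : Geo HP
  cons : List HP
  sh : ℚ

/-- The entries of the form in `φ - t`. -/
def shift {α : Type} [Lit α] [Add α] [Mul α] (t : ℚ) : List α → List α
  | [a, b, c, d, e, f] =>
    [a + Lit.lit (2 * t) * c + Lit.lit (t * t) * f, b + Lit.lit t * e, c + Lit.lit t * f, d, e, f]
  | l => l

/-- The entries of a chart. -/
def Spec.entries (S : Spec) (V : Vec) (c : Case) : List HP :=
  shift S.sh (Contact.entries V S.E S.G c)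

/-- The band of `w / r` on the cube piece. -/
def nuLo : ℚ := 181 / 128

/-- The band of `w / r` on the cube piece. -/
def nuHi : ℚ := 1449 / 1024

/-- A bound for `√σ` on the cube piece. -/
def rTop : ℚ := 4 / 25

/-- The constraints of the cube piece. -/
def cubeCons (E : Env HP) : List HP :=
  [E.cubeCon, -E.cubeCon, Lit.lit swR + -E.fP]

/-- The chart of a scaled point on the cube piece. -/
def cubeSpec (E : Env HP) : Spec := ⟨E, cubeGeo E, cubeCons E, 0⟩

/-- Near: `A ≤ σ / 4`. -/
def near1 : Spec :=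
  cubeSpec ⟨lin 0 0 rTop, lin 1 nuLo nuHi, Lit.lit 1, lin 2 0 (1 / 4), kapR⟩

/-- Near: `σ / 4 ≤ A ≤ 1 / 16`, scaled by `√A`. -/
def near2 : Spec :=
  cubeSpec ⟨lin 0 0 (1 / 4), lin 2 0 2 * lin 1 nuLo nuHi, lin 2 0 2 * lin 2 0 2, Lit.lit 1, kapR⟩

/-- Near: `1 / 16 ≤ A`. -/
def near3 : Spec :=
  cubeSpec ⟨Lit.lit 1, lin 0 0 rTop * lin 1 nuLo nuHi, lin 0 0 rTop * lin 0 0 rTop,
    Lit.lit (1 / 16) + var 3, kapR⟩

/-- A bound for `g` on the corner charts. -/
def cornerR : ℚ := 1 / 16

/-- The band of `ζ` at the end. -/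
def zetaEnd : ℚ := 1 / 1000

/-- The constraints on the far piece: `con` vanishes on the curve; `fFull = false` when the force
on `f` may be absent. -/
def farCons (f con : HP) (fFull : Bool) : List HP :=
  [con, -con, f + Lit.lit (-swR)] ++ if fFull then [] else [Lit.lit 2 + -(npw f 3)]

/-- The chart of a point on the far piece. -/
def farSpec (f g A con : HP) (fFull : Bool) : Spec :=
  ⟨farEnv f g A, farGeo f g, farCons f con fFull, 0⟩

/-- A segment of the far piece: `g ∈ [a, b]`, `f = lo + sl (g - a) + h ζ`. -/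
structure Seg where
  a : ℚ
  b : ℚ
  lo : ℚ
  sl : ℚ
  h : ℚ

/-- `f` on a segment. -/
def Seg.fP (S : Seg) : HP :=
  Lit.lit S.lo + Lit.lit (S.sl * (S.b - S.a)) * var 0 + Lit.lit S.h * var 1

/-- Far: a segment, with every `A`. -/
def farMid (S : Seg) (fFull : Bool) : Spec :=
  let g := lin 0 S.a S.b
  farSpec S.fP g (var 3) (qHi S.fP + npw g 3 + Lit.lit (-2)) fFull

/-- The chart at the end of the far piece. -/
def endSpec (g A : HP) (fFull : Bool) : Spec :=
  farSpec (farF (lin 1 0 zetaEnd) g) g A (farCon (lin 1 0 zetaEnd) g) fFull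

/-- The force at which the form vanishes at the end: `-F (endR) / e (endR)`. -/
def endForce : ℚ := 2149818231 / 1233593750

/-- The end: `A ≤ g ≤ cornerR`. -/
def corner1 (fFull : Bool) : Spec :=
  { endSpec (lin 0 0 cornerR) (lin 0 0 cornerR * var 2) fFull with sh := endForce }

/-- The end: `g ≤ A ≤ cornerR`. -/
def corner2 (fFull : Bool) : Spec :=
  { endSpec (lin 0 0 cornerR * var 2) (lin 0 0 cornerR) fFull with sh := endForce }

/-- The end: `g ≤ cornerR ≤ A`. -/
def corner3 (fFull : Bool) : Spec :=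
  endSpec (lin 0 0 cornerR) (Lit.lit cornerR + var 3) fFull

/-- The segments of the far piece: tilted bands around the curve. -/
def segs : List Seg :=
  [⟨1 / 16, 1 / 4, 1325339 / 1048576, -19 / 1024, 997 / 1048576⟩,
   ⟨1 / 4, 3 / 10, 1321699 / 1048576, -211 / 4096, 131 / 1048576⟩,
   ⟨3 / 10, 7 / 20, 1319001 / 1048576, -295 / 4096, 77 / 524288⟩,
   ⟨7 / 20, 2 / 5, 657613 / 524288, -197 / 2048, 45 / 262144⟩,
   ⟨2 / 5, 17 / 40, 655093 / 524288, -477 / 4096, 55 / 1048576⟩,
   ⟨17 / 40, 9 / 20, 1307131 / 1048576, -269 / 2048, 59 / 1048576⟩,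
   ⟨9 / 20, 19 / 40, 1303687 / 1048576, -603 / 4096, 61 / 1048576⟩,
   ⟨19 / 40, 1 / 2, 1299825 / 1048576, -21 / 128, 33 / 524288⟩,
   ⟨1 / 2, 21 / 40, 323881 / 262144, -373 / 2048, 17 / 262144⟩,
   ⟨21 / 40, 11 / 20, 1290749 / 1048576, -103 / 512, 9 / 131072⟩,
   ⟨11 / 20, 23 / 40, 1285475 / 1048576, -907 / 4096, 19 / 262144⟩,
   ⟨23 / 40, 3 / 5, 639835 / 524288, -995 / 4096, 5 / 65536⟩,
   ⟨3 / 5, 13 / 20, 636651 / 524288, -569 / 2048, 325 / 1048576⟩,
   ⟨13 / 20, 7 / 10, 314683 / 262144, -1349 / 4096, 369 / 1048576⟩,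
   ⟨7 / 10, 3 / 4, 620731 / 524288, -795 / 2048, 421 / 1048576⟩,
   ⟨3 / 4, 61 / 80, 305277 / 262144, -1757 / 4096, 37 / 1048576⟩,
   ⟨61 / 80, 31 / 40, 1215485 / 1048576, -1829 / 4096, 37 / 1048576⟩,
   ⟨31 / 40, 63 / 80, 604815 / 524288, -119 / 256, 39 / 1048576⟩,
   ⟨63 / 80, 4 / 5, 601769 / 524288, -1983 / 4096, 39 / 1048576⟩,
   ⟨4 / 5, 13 / 16, 149649 / 131072, -129 / 256, 41 / 1048576⟩,
   ⟨13 / 16, 33 / 40, 1190587 / 1048576, -1075 / 2048, 21 / 524288⟩,
   ⟨33 / 40, 67 / 80, 1183707 / 1048576, -35 / 64, 45 / 1048576⟩,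
   ⟨67 / 80, 17 / 20, 1176541 / 1048576, -1167 / 2048, 23 / 524288⟩,
   ⟨17 / 20, 7 / 8, 73067 / 65536, -1243 / 2048, 177 / 1048576⟩]

/-- The drop of the degree at infinity in `A` of the six entries. -/
def dropA : List ℕ := [0, 1, 1, 2, 2, 2]

/-- The degree of a value. -/
def degOf : HP → Vale.Agent.P098.Cert6.Kron.Deg
  | none => (0, 0, 0, 0)
  | some h => h.d

/-- The denominator of a value, less one. -/
def qOf : HP → ℕ
  | none => 0
  | some h => h.q

/-- The loss of degree of an entry, none without a projective variable. -/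
def lossA (d : Vale.Agent.P098.Cert6.Kron.Deg) (t : ℕ) : ℕ := if d.2.2.2 = 0 then 0 else t

/-- A scale for what is assumed, so that its digits survive the shift of the packing. -/
def consBoost : ℚ := 2 ^ 30

/-- The constraints, scaled. -/
def Spec.aux (S : Spec) : List HP := S.cons.map fun a => Lit.lit consBoost * a

/-- The numerators of the six entries and of the constraints at one degree: an entry is first
brought to degree `d₃ - drop` in the last pair by `y`, then to `d₃` by `x + y`. -/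
def polys (V : Vec) (S : Spec) (c : Case) (q : ℕ) (d : Vale.Agent.P098.Cert6.Kron.Deg) :
    List Vale.Agent.P098.Cert6.Kron.Poly :=
  (((S.entries V c).zip dropA).map fun a =>
    pad1 (finish q (d.1, d.2.1, d.2.2.1, d.2.2.2 - lossA d a.2) a.1) 3 (lossA d a.2)) ++ S.aux.map (finish q d)

/-- A common denominator, less one. -/
def commonQ (l : List HP) : ℕ := (l.map fun a => qOf a + 1).foldl Nat.lcm 1 - 1

/-- A common degree. -/
def commonDeg (l : List HP) : Vale.Agent.P098.Cert6.Kron.Deg :=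
  l.foldl (fun d a => (max d.1 (degOf a).1, max d.2.1 (degOf a).2.1,
    max d.2.2.1 (degOf a).2.2.1, max d.2.2.2 (degOf a).2.2.2)) (0, 0, 0, 0)

end Vale.Agent.P211.Cert.Contact
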