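import Vale.Agent.P211.Cert.Chart.Atoms

/-!
P211, the contact form on a blown-up point: with `H = r H'`, `φ = r² φ'` it is `r ^ 8 / (2 D²)` times
a quadratic form in `(1, H', φ')` whose entries are polynomials, `D = e(f) + e(g)`.
-/

namespace Vale.Agent.P211.Cert.Contact

open Chart

/-- The geometry of the constraint at the point, scaled: `F f - F g = r l`, `F f + F g = r² lv`,
`e g - e f = - r n`, `D = e f + e g`, `e f F f + e g F g = r² sig`. -/
structure Geo (α : Type) where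
  l : α
  lv : α
  n : α
  D : α
  sig : α
  ef : α
  eg : α
  df : α
  dg : α

/-- The forces allowed and the factor on the right hand side. -/
structure Case where
  al : ℚ
  be : ℚ
  eps : ℚ

variable {α : Type} [Lit α] [Add α] [Mul α] [Neg α]

/-- The six entries `00, 0H, 0φ, HH, Hφ, φφ` of the doubled form. -/
def entries (V : Vec) (E : Env α) (G : Geo α) (c : Case) : List α :=
  let x := E.x
  let D2 := G.D * G.D
  let p := E.r * (Lit.lit c.al * G.ef + Lit.lit (-c.be) * G.eg)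
  let q := Lit.lit c.al * G.ef + Lit.lit c.be * G.eg
  let R := Lit.lit c.al * (G.ef * G.ef) + Lit.lit c.be * (G.eg * G.eg)
  let V0 := E.sV 5 V.Y0
  let A0 := E.sA 5 V.Y0
  let W0 := E.sW 5 V.Y0
  let U0 := E.sU 5 V.Y0
  let V1 := E.sV 4 V.Y1
  let A1 := E.sA 4 V.Y1
  let W1 := E.sW 4 V.Y1
  let U1 := E.sU 4 V.Y1
  let V2 := E.sV 4 V.Y2
  let A2 := E.sA 4 V.Y2
  let W2 := E.sW 4 V.Y2
  let U2 := E.sU 4 V.Y2
  let K3 := E.sV 4 V.Y3
  let K4 := E.sK 4 V.Y4
  let Q := G.sig * D2 + x * (G.df * (G.eg * G.eg) + G.dg * (G.ef * G.ef))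
  let T := npw (x + E.w * E.w) 4 * (E.one * E.one)
  let h2 := Lit.lit (4 / 3) * V2 + Lit.lit 2 * (x * A2)
  let hl := Lit.lit (-2 / 3) * V2 + Lit.lit (-2) * (x * A2)
  let two := fun a : α => Lit.lit 2 * a
  let m00 := D2 * (V0 * G.l + V1 * G.lv + x * W0 + Lit.lit 3 * (x * V2) +
      Lit.lit (-2 / 3) * (V2 * (G.l * G.l)) + -(x * (W2 * G.l)) + Lit.lit (-c.eps) * T) +
    -(G.D * G.n * (x * (U0 + W1 + -(U2 * G.l)))) + G.n * G.n * (x * U1) + K3 * Q
  let m01 := D2 * (Lit.lit 2 * (x * A0) + x * W2 + hl * G.l) +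
    -(G.D * G.n * (x * (Lit.lit 2 * A1 + U2)))
  let m02 := D2 * (V0 * p + V1 * q + Lit.lit (-4 / 3) * (V2 * (G.l * p)) + -(x * (W2 * p)) +
      K3 * R) +
    G.D * G.n * (x * (U2 * p)) + K4 * Q
  let m22 := D2 * (Lit.lit (-2 / 3) * (V2 * (p * p)) + K4 * R)
  [two m00, m01, m02, two (D2 * h2), D2 * (hl * p), two m22]

noncomputable section

/-- The relations that make `G` the geometry at `(f, g)`. -/
structure Geo.At (G : Geo ℝ) (r f g : ℝ) : Prop where
  hl : reactF f - reactF g = r * G.l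
  hlv : reactF f + reactF g = r ^ 2 * G.lv
  hn : eLev g - eLev f = -(r * G.n)
  hD : eLev f + eLev g = G.D
  hsig : eLev f * reactF f + eLev g * reactF g = r ^ 2 * G.sig
  hef : eLev f = G.ef
  heg : eLev g = G.eg
  hdf : eLev₁ f = G.df
  hdg : eLev₁ g = G.dg

/-- Weights enough for the scaling. -/
def VecWt (V : Vec) : Prop :=
  WtGe 5 V.Y0 ∧ WtGe 4 V.Y1 ∧ WtGe 4 V.Y2 ∧ WtGe 4 V.Y3 ∧ WtGe 4 V.Y4

instance (V : Vec) : Decidable (VecWt V) := by unfold VecWt; infer_instance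

/-- The doubled form of a list of six entries. -/
def form6 (l : List ℝ) (H φ : ℝ) : ℝ :=
  l.getD 0 0 + 2 * l.getD 1 0 * H + 2 * l.getD 2 0 * φ + l.getD 3 0 * H ^ 2 +
    2 * l.getD 4 0 * H * φ + l.getD 5 0 * φ ^ 2

theorem contactForm_eq {V : Vec} (hV : VecWt V) {E : Env ℝ} {G : Geo ℝ} {f g A : ℝ}
    (hE : E.At f g A) (hG : G.At E.r f g) (hD : G.D ≠ 0) (c : Case) (H φ : ℝ) :
    2 * G.D ^ 2 * (contactForm V f g A A c.al c.be (E.r * H) (E.r ^ 2 * φ) -
        c.eps * (A + (f - g) ^ 2) ^ 4 * (1 + A) ^ 2) =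
      E.r ^ 8 * form6 (entries V E G c) H φ := by
  obtain ⟨h0, h1, h2, h3, h4⟩ := hV
  rw [contactForm, levelPart, slope, bodyForm, hE.scV_eq h0, hE.scA_eq h0 (by norm_num),
    hE.scW_eq h0 (by norm_num), hE.scU_eq h0 (by norm_num), hE.scV_eq h1,
    hE.scA_eq h1 (by norm_num), hE.scW_eq h1 (by norm_num), hE.scU_eq h1 (by norm_num),
    hE.scV_eq h2, hE.scA_eq h2 (by norm_num), hE.scW_eq h2 (by norm_num),
    hE.scU_eq h2 (by norm_num), hE.scV_eq h3, hE.scK_eq h4, hG.hl, hG.hlv, hG.hn, hG.hD, hG.hsig,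
    hG.hef, hG.heg, hG.hdf, hG.hdg, hE.hA, hE.hw]
  simp only [form6, entries, List.getD_cons_zero, List.getD_cons_succ, Lit.lit, npw_real,
    Env.one_real, Rat.cast_neg, Rat.cast_div, Rat.cast_ofNat]
  field_simp
  ring

end

end Vale.Agent.P211.Cert.Contact
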