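import Vale.Agent.P211.Cert.Contact.Points
import Vale.Agent.P211.Cert.Vector

/-!
P211, the contact condition on `g ≤ f` from the checked charts, whatever the vector.
-/

namespace Vale.Agent.P211.Cert.Contact

open Chart

noncomputable section

/-- The six entries of a chart form a form nonnegative on the cone, where the constraints hold. -/
def ChartGood (V : Vec) (S : Spec) (c : Case) : Prop :=
  ∀ p : Fin 4 → ℝ, (∀ i, p i ∈ Set.Icc (0 : ℝ) 1) → p 3 < 1 → (∀ a ∈ S.cons, 0 ≤ val p a) →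
    ∀ H φ : ℝ, (S.sh = 0 → 0 ≤ φ) → 0 ≤ form6 ((S.entries V c).map (val p)) H φ

/-- Everything that is to be checked: the forces `(1, 1)`, `(0, 1)`, `(1, 0)` in turn. -/
structure Family (V : Vec) : Prop where
  weight : VecWt V
  near : ∀ z ∈ [((1 : ℚ), (1 : ℚ)), (0, 1), (1, 0)],
    ChartGood V near1 ⟨z.1, z.2, 1⟩ ∧ ChartGood V near2 ⟨z.1, z.2, 1⟩ ∧
      ChartGood V near3 ⟨z.1, z.2, 1⟩
  segFull : ∀ S ∈ segs, ∀ be ∈ [(1 : ℚ), 0],
    ChartGood V (farMid S true) ⟨1, be, if S.b ≤ 3 / 5 then 0 else 1⟩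
  segPart : ∀ S ∈ segs, 1 / 4 < S.b →
    ChartGood V (farMid S false) ⟨0, 1, if S.b ≤ 3 / 5 then 0 else 1⟩
  corner : ∀ be ∈ [(1 : ℚ), 0],
    ChartGood V (corner1 true) ⟨1, be, 0⟩ ∧ ChartGood V (corner2 true) ⟨1, be, 0⟩ ∧
      ChartGood V (corner3 true) ⟨1, be, 0⟩

variable {V : Vec} {S : Spec} {c : Case} {f g A : ℝ}

/-- The point is one of the chart, away from the singular point, where the constraints hold. -/
def Hit (S : Spec) (f g A : ℝ) : Prop :=
  ∃ p : Fin 4 → ℝ, (∀ i, p i ∈ Set.Icc (0 : ℝ) 1) ∧ p 3 < 1 ∧ (∀ a ∈ S.cons, 0 ≤ val p a) ∧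
    (S.E.map (val p)).At f g A ∧ (S.G.map (val p)).At (S.E.map (val p)).r f g ∧ val p S.E.r ≠ 0

/-- A checked chart at one of its points. -/
lemma Hit.apply (h : Hit S f g A) (hV : VecWt V) (hgood : ChartGood V S c)
    (hD : 0 < eLev f + eLev g) (H φ : ℝ) (hφ : 0 ≤ φ) :
    c.eps * (A + (f - g) ^ 2) ^ 4 * (1 + A) ^ 2 ≤ contactForm V f g A A c.al c.be H φ := by
  obtain ⟨p, hp, hp3, hcons, hE, hG, hr⟩ := h
  exact contact_of_form6 hV hp3 (hgood p hp hp3 hcons) hE hG hD hr H φ hφ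

lemma val_lin (p : Fin 4 → ℝ) (hp : p 3 < 1) {i : Fin 4} (hi : i ≠ 3) (a b : ℚ) :
    val p (lin i a b) = a + (b - a) * p i := by
  simp [lin, val_add hp, val_mul, val_cst, val_var, hi, Lit.lit]

lemma val_var_three (p : Fin 4 → ℝ) : val p (var 3) = p 3 / (1 - p 3) := by simp [val_var]

lemma cubeSpec_hit {E : Env HP} {p : Fin 4 → ℝ} (hp : ∀ i, p i ∈ Set.Icc (0 : ℝ) 1)
    (hp3 : p 3 < 1) (hE : (E.map (val p)).At f g A) (hf : f ≤ 11 / 10) (hg : g ≤ 11 / 10)
    (hc : f ^ 3 + g ^ 3 = 2) (hr : (E.map (val p)).r ≠ 0) : Hit (cubeSpec E) f g A := by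
  have h := isLitHom_val hp3
  have hcon : (E.map (val p)).cubeCon = 0 := by
    have := hE.cubeCon_eq
    rw [hc, sub_self, mul_zero] at this
    exact (mul_eq_zero.1 this).resolve_left (pow_ne_zero 2 hr)
  refine ⟨p, hp, hp3, fun a ha => ?_, hE, ?_, hr⟩
  · simp only [cubeSpec, cubeCons, List.mem_cons, List.not_mem_nil, or_false] at ha
    rcases ha with rfl | rfl | rfl
    · rw [map_cubeCon h, hcon]
    · rw [h.neg, map_cubeCon h, hcon, neg_zero]
    · rw [h.add, h.neg, h.lit, map_fP h, hE.fP_eq.1]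
      simp only [Lit.lit, swR]
      push_cast
      linarith
  · rw [show (cubeSpec E).G = cubeGeo E from rfl, map_cubeGeo h]
    exact cubeGeo_at hE hf hg

lemma farSpec_hit {F G' A' con : HP} {fFull : Bool} {p : Fin 4 → ℝ}
    (hp : ∀ i, p i ∈ Set.Icc (0 : ℝ) 1) (hp3 : p 3 < 1) (eF : val p F = f) (eG : val p G' = g)
    (eA : val p A' = A) (econ : val p con = 0) (hf : 11 / 10 ≤ f) (hg : g ≤ 11 / 10)
    (hfull : fFull = false → f ^ 3 ≤ 2) : Hit (farSpec F G' A' con fFull) f g A := by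
  have h := isLitHom_val hp3
  refine ⟨p, hp, hp3, fun a ha => ?_, ?_, ?_, ?_⟩
  · simp only [farSpec, farCons, List.mem_append, List.mem_cons, List.not_mem_nil, or_false] at ha
    rcases ha with (rfl | rfl | rfl) | ha
    · rw [econ]
    · rw [h.neg, econ, neg_zero]
    · rw [h.add, h.lit, eF]
      simp only [Lit.lit, swR]
      push_cast
      linarith
    · cases fFull with
      | true => simp at ha
      | false =>
        simp only [Bool.false_eq_true, if_false, List.mem_cons, List.not_mem_nil, or_false] at ha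
        subst ha
        rw [h.add, h.neg, h.lit, h.npw, npw_real, eF]
        simp only [Lit.lit]
        push_cast
        linarith [hfull rfl]
  · rw [show (farSpec F G' A' con fFull).E = farEnv F G' A' from rfl, map_farEnv h, eF, eG, eA]
    exact farEnv_at f g A
  · rw [show (farSpec F G' A' con fFull).G = farGeo F G' from rfl, map_farGeo h, eF, eG,
      show (farSpec F G' A' con fFull).E = farEnv F G' A' from rfl, map_farEnv h, eF, eG, eA]
    exact farGeo_at hf hg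
  · rw [show (farSpec F G' A' con fFull).E.r = Lit.lit 1 from rfl, h.lit]
    norm_num [Lit.lit]

/-- The common point with no gradient: both sides vanish. -/
lemma contact_point (hV : VecWt V) (al be H φ : ℝ) :
    contactForm V 1 1 0 0 al be H φ = 0 := by
  obtain ⟨h0, h1, h2, h3, h4⟩ := hV
  have hE : (⟨0, 0, 0, 0, kapR⟩ : Env ℝ).At 1 1 0 := by
    constructor <;> norm_num [kapR_eq]
  simp [contactForm, bodyForm, hE.scV_eq h0, hE.scA_eq h0 (by norm_num),
    hE.scW_eq h0 (by norm_num), hE.scU_eq h0 (by norm_num), hE.scV_eq h1,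
    hE.scA_eq h1 (by norm_num), hE.scW_eq h1 (by norm_num), hE.scU_eq h1 (by norm_num),
    hE.scV_eq h2, hE.scA_eq h2 (by norm_num), hE.scW_eq h2 (by norm_num),
    hE.scU_eq h2 (by norm_num), hE.scV_eq h3, hE.scK_eq h4]

/-- The band of `w / r`. -/
lemma nu_band {f g : ℝ} (hgf : g ≤ f) (hf : f ≤ 11 / 10) (hg : 0 ≤ g) (hc : f ^ 3 + g ^ 3 = 2) :
    0 ≤ 2 - f - g ∧ 2 - f - g ≤ (rTop : ℝ) ^ 2 ∧
      (nuLo : ℝ) * √(2 - f - g) ≤ f - g ∧ f - g ≤ (nuHi : ℝ) * √(2 - f - g) := by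
  obtain ⟨s, rfl⟩ : ∃ s, f = 2 - s - g := ⟨2 - f - g, by ring⟩
  have hs0 : 0 ≤ s := by nlinarith [sq_nonneg (2 - s - 2 * g), sq_nonneg (2 - s), sq_nonneg g]
  have hg1 : 87 / 100 ≤ g := by
    have := pow_le_pow_left₀ (by linarith : 0 ≤ 2 - s - g) hf 3
    nlinarith [sq_nonneg (g - 87 / 100), sq_nonneg (g + 87 / 100), sq_nonneg g]
  have hcub : 3 * (2 - s) * (2 - s - 2 * g) ^ 2 = s * (12 - 6 * s + s ^ 2) := by nlinarith
  have hs1 : s ≤ (rTop : ℝ) ^ 2 := by
    norm_num [rTop]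
    nlinarith [sq_nonneg (g - 87 / 100), mul_nonneg hs0 hs0, sq_nonneg (2 - s - g - 11 / 10)]
  have hw : 0 ≤ 2 - s - 2 * g := by linarith
  have e : 2 - (2 - s - g) - g = s := by ring
  rw [e, show 2 - s - g - g = 2 - s - 2 * g by ring]
  norm_num [rTop] at hs1
  refine ⟨hs0, by norm_num [rTop]; exact hs1, ?_, ?_⟩
  · refine (sq_le_sq₀ (by norm_num [nuLo]) hw).1 ?_
    rw [mul_pow, Real.sq_sqrt hs0]
    norm_num [nuLo]
    nlinarith [mul_nonneg hs0 hs0, mul_nonneg (mul_nonneg hs0 hs0) hs0]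
  · refine (sq_le_sq₀ hw (by norm_num [nuHi])).1 ?_
    rw [mul_pow, Real.sq_sqrt hs0]
    norm_num [nuHi]
    nlinarith [mul_nonneg hs0 hs0, mul_nonneg (mul_nonneg hs0 hs0) (sub_nonneg.2 hs1)]

end

end Vale.Agent.P211.Cert.Contact
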