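import Vale.Agent.P211.Cert.Contact.Mult
import Vale.Agent.P098.Check6.Literal

/-!
P211, helpers for the generated data of the contact family: leaves from twelve numbers, and the
chart conclusions from literal roots.
-/

namespace Vale.Agent.P211.Cert.Contact

open Chart
open Vale.Agent.P098.Check6 (eqList Face St)
open Vale.Agent.P098.Cert6.Kron (RootPar parOK Deg)

/-- A leaf from the congruence by rows and the weights: the inverse is the adjugate. -/
def lf (a b c d e f g h i : ℤ) (u v w : ℕ) : Check.Leaf :=
  .psd ⟨⟨⟨a, b, c⟩, ⟨d, e, f⟩, ⟨g, h, i⟩⟩,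
    ⟨⟨e * i - f * h, c * h - b * i, b * f - c * e⟩, ⟨f * g - d * i, a * i - c * g, c * d - a * f⟩,
      ⟨d * h - e * g, b * g - a * h, a * e - b * d⟩⟩,
    (a * (e * i - f * h) - b * (d * i - f * g) + c * (d * h - e * g)).toNat, ⟨u, v, w⟩⟩

/-- The row of the constant vanishes at the end. -/
def faceEnd : List Face := [⟨0, false, ⟨true, false, false, false, false, false⟩⟩]

/-- A skipped box. -/
def sk (i : ℕ) : Check.Leaf := .skip i

noncomputable section

/-- A contact chart is good when the literal root of its numerators is good. -/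
theorem chartGood_of_literal {V : Vec} {S : Spec} {c : Case} {q : ℕ} {d : Deg} {R : RootPar}
    {fs : List Face} {lit : List ℕ} (hpar : parOK R d = true) (hok : polysOK V S c q d = true)
    (hall : Check.rootsOK R d (polys V S c q d) fs = true)
    (hlit : eqList (Check.rootSt R d (polys V S c q d) fs).Ys lit = true)
    (hgood : Check.Good (coneC S) (Check.rootCfg R d) ⟨lit, 1, fs⟩) : ChartGood V S c :=
  fun _ hp hp3 hcons H φ hφ =>
    form6_nonneg hpar hok hall (Check.good_of_literal hlit hgood) hp hp3 hcons H φ hφ

/-- A multiplier chart is good when the literal root of its numerators is good. -/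
theorem multGood_of_literal {Y : Num} {S : Spec} {d : Deg} {R : RootPar} {fs : List Face}
    {lit : List ℕ} (hd : Pair.commonDeg (multList Y S) = d) (hpar : parOK R d = true)
    (hok : Pair.polysOK (multList Y S) = true)
    (hall : Check.rootsSignOK R d (Pair.polys (multList Y S)) fs = true)
    (hlit : eqList (Check.rootSt R d (Pair.polys (multList Y S)) fs).Ys lit = true)
    (hgood : Check.GoodSign (Check.rootCfg R d) ⟨lit, 1, fs⟩) : MultGood Y S :=
  multGood_of_root (R := R) (fs := fs) ⟨hok, hd.symm ▸ hpar, hd.symm ▸ hall,
    hd.symm ▸ Check.goodSign_of_literal hlit hgood⟩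

end

end Vale.Agent.P211.Cert.Contact
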