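import Vale.Agent.P211.Cert.Chart.Hom
import Vale.Agent.P211.Cert.Contact.Entries

/-!
P211, the contact entries commute with maps which preserve sums, products and rationals.
-/

namespace Vale.Agent.P211.Cert.Contact

open Chart

variable {α β : Type} [Lit α] [Add α] [Mul α] [Neg α] [Lit β] [Add β] [Mul β] [Neg β]

/-- Apply a map to the geometry. -/
def Geo.map (φ : α → β) (G : Geo α) : Geo β :=
  ⟨φ G.l, φ G.lv, φ G.n, φ G.D, φ G.sig, φ G.ef, φ G.eg, φ G.df, φ G.dg⟩

lemma map_entries {φ : α → β} (h : IsLitHom φ) (V : Vec) (E : Env α) (G : Geo α) (c : Case) :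
    (entries V E G c).map φ = entries V (E.map φ) (G.map φ) c := by
  simp only [entries, List.map_cons, List.map_nil, h.add, h.mul, h.neg, h.lit, h.npw, map_one h,
    map_sV h, map_sA h, map_sW h, map_sU h, map_sK h]
  rfl

end Vale.Agent.P211.Cert.Contact
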