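import Vale.Agent.P211.Cert.Chart.Shape
import Vale.Agent.P211.Cert.Contact.EntriesHom

/-!
P211, the geometry of the constraint in the two kinds of contact charts.
-/

namespace Vale.Agent.P211.Cert.Contact

open Chart

variable {α : Type} [Lit α] [Add α] [Mul α] [Neg α]

/-- The geometry on the cube piece, at a scaled point. -/
def cubeGeo (E : Env α) : Geo α :=
  let u := E.r * E.r * E.s
  let t := E.tsum
  let W := E.w * E.w
  let R2 := E.r * E.r
  let f := E.fP
  let g := E.gP
  let c := Lit.lit (1 / 4) * (E.s * (Lit.lit 12 + Lit.lit (-6) * u + u * u)) +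
    Lit.lit (-3 / 4) * (t * W)
  let d := Lit.lit (1 / 4) * (E.s * (Lit.lit 4 + -u)) + Lit.lit (1 / 4) * W
  { l := E.w * (Lit.lit 2 + Lit.lit (-2) * (t * (f * f + g * g)))
    lv := Lit.lit 6 * E.s + Lit.lit (-6) * (u * E.s) + Lit.lit 2 * (u * u * E.s) +
      Lit.lit (-1 / 4) * (u * u * u * E.s) +
      -((Lit.lit 6 + Lit.lit (-6) * u + Lit.lit (3 / 2) * (u * u)) * W) +
      Lit.lit (-1 / 4) * (R2 * (W * W))
    n := E.w * t
    D := f * f + g * g
    sig := Lit.lit 2 * (Lit.lit 3 * c + -(R2 * (c * c)) + Lit.lit (-6) * d +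
      Lit.lit 6 * (R2 * (d * d)) + Lit.lit (-2) * (R2 * R2 * (d * d * d)))
    ef := f * f
    eg := g * g
    df := Lit.lit 2 * f
    dg := Lit.lit 2 * g }

/-- The geometry with `11 / 10 ≤ f`, `g ≤ 11 / 10`, unscaled. -/
def farGeo (f g : α) : Geo α :=
  let ef := eHi f
  let eg := g * g
  { l := reactP f + -(reactP g)
    lv := reactP f + reactP g
    n := ef + -eg
    D := ef + eg
    sig := ef * reactP f + eg * reactP g
    ef := ef
    eg := eg
    df := eHi₁ f
    dg := Lit.lit 2 * g }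

/-- The scaled point of `(f, g, A)` with `r = 1`. -/
def farEnv (f g A : α) : Env α :=
  ⟨Lit.lit 1, f + -g, Lit.lit 2 + -f + -g, A, kapR⟩

section

variable {β : Type} [Lit β] [Add β] [Mul β] [Neg β] {φ : α → β}

lemma map_cubeGeo (h : IsLitHom φ) (E : Env α) : (cubeGeo E).map φ = cubeGeo (E.map φ) := by
  simp only [cubeGeo, Geo.map, h.add, h.mul, h.neg, h.lit, map_fP h, map_gP h, map_tsum h]
  rfl

lemma map_farGeo (h : IsLitHom φ) (f g : α) : (farGeo f g).map φ = farGeo (φ f) (φ g) := by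
  simp only [farGeo, Geo.map, h.add, h.mul, h.neg, h.lit, map_eHi h, map_eHi₁ h, map_reactP h]

lemma map_farEnv (h : IsLitHom φ) (f g A : α) :
    (farEnv f g A).map φ = farEnv (φ f) (φ g) (φ A) := by
  simp only [farEnv, Env.map, h.add, h.neg, h.lit]

end

noncomputable section

variable {f g A : ℝ}

lemma cubeGeo_at {E : Env ℝ} (h : E.At f g A) (hf : f ≤ 11 / 10) (hg : g ≤ 11 / 10) :
    (cubeGeo E).At E.r f g := by
  obtain ⟨rfl, rfl⟩ := h.fP_eq
  obtain ⟨_, ef, df⟩ := level_lo hf
  obtain ⟨_, eg, dg⟩ := level_lo hg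
  constructor
  all_goals try simp only [ef, eg, df, dg]
  all_goals simp only [cubeGeo, reactF, Env.fP, Env.gP, Env.tsum, Lit.lit]
  all_goals push_cast
  all_goals ring

lemma farEnv_at (f g A : ℝ) : (farEnv f g A).At f g A := by
  constructor
  all_goals simp only [farEnv, Lit.lit, kapR_eq]
  all_goals push_cast
  all_goals ring

lemma farGeo_at (hf : 11 / 10 ≤ f) (hg : g ≤ 11 / 10) :
    (farGeo f g).At (farEnv f g A).r f g := by
  obtain ⟨_, ef, df⟩ := level_hi hf
  obtain ⟨_, eg, dg⟩ := level_lo hg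
  constructor
  all_goals try simp only [ef, eg, df, dg]
  all_goals simp only [farGeo, farEnv, reactP_real, Lit.lit]
  all_goals push_cast
  all_goals ring

end

end Vale.Agent.P211.Cert.Contact
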