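import Vale.Agent.P211.Cert.Contact.Assemble
import Vale.Agent.P211.Cert.Pair.Roots

/-!
P211, the two multipliers are nonnegative on the curve (`g ≤ f`): one scalar test on each chart of
the contact cover.
-/

namespace Vale.Agent.P211.Cert.Contact

open Chart

/-- The scaled multiplier on a chart. -/
def multV (Y : Num) (S : Spec) : HP := lsum (Y.map (S.E.tV 4))

/-- The scalar and the constraints of a chart. -/
def multList (Y : Num) (S : Spec) : List (ℕ × HP) :=
  let a := multV Y S
  (Pair.degP a, a) :: S.cons.map fun b => (Pair.degP b, Lit.lit Pair.boost * b)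

/-- All charts of the curve, with no assumption on the forces. -/
def multSpecs : List Spec :=
  [near1, near2, near3, corner1 true, corner2 true, corner3 true] ++ segs.map fun S => farMid S true

noncomputable section

/-- The scaled multiplier is nonnegative on the chart, where the constraints hold. -/
def MultGood (Y : Num) (S : Spec) : Prop :=
  ∀ p : Fin 4 → ℝ, (∀ i, p i ∈ Set.Icc (0 : ℝ) 1) → p 3 < 1 → (∀ a ∈ S.cons, 0 ≤ val p a) →
    0 ≤ val p (multV Y S)

/-- Everything that is to be checked for the two multipliers. -/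
structure MultFamily (V : Vec) : Prop where
  wt3 : WtGe 4 V.Y3
  wt4 : WtGe 4 V.Y4
  good : ∀ S ∈ multSpecs, MultGood V.Y3 S ∧ MultGood V.Y4 S

variable {Y : Num} {S : Spec} {f g A : ℝ}

/-- A good root of the scalar checker gives a good chart. -/
theorem multGood_of_root {R : Vale.Agent.P098.Cert6.Kron.RootPar}
    {fs : List Vale.Agent.P098.Check6.Face} (h : Pair.SignRoot (multList Y S) R fs) :
    MultGood Y S := by
  intro p hp hp3 hcons
  refine h.nonneg (by simp [multList]) hp hp3 fun i h1 hi => ?_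
  obtain ⟨j, rfl⟩ := Nat.exists_eq_add_of_le h1
  have hj : j < S.cons.length := by simp [multList] at hi; omega
  have := hcons _ (List.getElem_mem hj)
  simp only [multList, Nat.add_comm 1 j, List.getD_cons_succ]
  rw [List.getD_eq_getElem _ _ (by simpa using hj)]
  simp only [List.getElem_map, val_mul, val_lit]
  exact mul_nonneg (by norm_num [Pair.boost, Lit.lit]) this

lemma Hit.mult_nonneg (h : Hit S f g A) (hY : WtGe 4 Y) (hgood : MultGood Y S) :
    0 ≤ Y.val (f - g) (2 - f - g) A := by
  obtain ⟨p, hp, hp3, hcons, hE, -, -⟩ := h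
  have h := isLitHom_val hp3
  have e : val p (multV Y S) = lsum (Y.map ((S.E.map (val p)).tV 4)) := map_tV h S.E 4 Y
  rw [hE.hw, hE.hs, hE.hA, val_scaled hY, ← e]
  exact mul_nonneg (by positivity) (hgood p hp hp3 hcons)

lemma mult_point (hY : WtGe 4 Y) : Y.val (1 - 1) (2 - 1 - 1) 0 = 0 := by
  have h := val_scaled (E := (⟨0, 0, 0, 0, kapR⟩ : Env ℝ)) hY
  norm_num at h ⊢
  exact h

/-- Some chart of the family holds the point, or it is the common one. -/
lemma mult_cover (hbox : InBox f g A) (hgf : g ≤ f) (hc : qLev f + qLev g = 2) :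
    f = 1 ∧ g = 1 ∧ A = 0 ∨ ∃ S ∈ multSpecs, Hit S f g A := by
  obtain ⟨f0, f2, g0, g2, hA⟩ := hbox
  rcases le_or_gt f (11 / 10) with hf | hf
  · have hc3 : f ^ 3 + g ^ 3 = 2 := by
      rw [← (level_lo hf).1, ← (level_lo (hgf.trans hf)).1, hc]
    rcases near_cover hgf hf g0 hA hc3 with h | h | h | h
    · exact Or.inl h
    all_goals exact Or.inr ⟨_, by simp [multSpecs], h⟩
  have hg : g ≤ 11 / 10 := by
    by_contra hg
    push Not at hg
    have := qLev_high hg.le g2
    have := qLev_high hf.le f2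
    linarith
  refine Or.inr ?_
  rcases le_or_gt g (1 / 16) with hgc | hgc
  · rcases corner_cover (fFull := true) g0 hgc hf.le f2 hc (by simp) hA with h | h | h
    all_goals exact ⟨_, by simp [multSpecs], h⟩
  have hq : qHi f + g ^ 3 = 2 := by rw [← (level_hi hf.le).1, ← (level_lo hg).1, hc]
  have hg78 : g ≤ 7 / 8 := far_g_le hf.le f2 hq
  obtain ⟨S, hS, ha, hb, hok⟩ : ∃ S ∈ segs, (S.a : ℝ) ≤ g ∧ g ≤ S.b ∧ S.ok = true := by
    rcases chain_find segs_chain g (by push_cast; linarith) (by push_cast; linarith) with h | ⟨h, -⟩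
    · exact h
    · simp [segs] at h
  exact ⟨farMid S true, List.mem_append_right _ (List.mem_map_of_mem hS),
    seg_cover hok ha hb hf.le f2 hg hq (by simp) hA⟩

/-- The multipliers on `g ≤ f` from a family of checked charts. -/
theorem mult_of_family {V : Vec} (F : MultFamily V) (f g A : ℝ) (hbox : InBox f g A) (hgf : g ≤ f)
    (hc : qLev f + qLev g = 2) :
    0 ≤ V.Y3.val (f - g) (2 - f - g) A ∧ 0 ≤ V.Y4.val (f - g) (2 - f - g) A := by
  rcases mult_cover hbox hgf hc with ⟨rfl, rfl, rfl⟩ | ⟨S, hS, h⟩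
  · exact ⟨(mult_point F.wt3).ge, (mult_point F.wt4).ge⟩
  · exact ⟨h.mult_nonneg F.wt3 (F.good S hS).1, h.mult_nonneg F.wt4 (F.good S hS).2⟩

end

end Vale.Agent.P211.Cert.Contact
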