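import Vale.Agent.P211.Cert.Contact.Sound

/-!
P211, points of the contact charts: every point of the curve lies in one of them.
-/

namespace Vale.Agent.P211.Cert.Contact

open Chart

/-- The cubic `qHi (L + sl u) + (a + u)³ - 2` on `[0, h]` has sign `sg`: by its Bernstein
coefficients, after bisection. -/
def bandTest (sg sl : ℚ) : ℕ → ℚ → ℚ → ℚ → Bool
  | n, L, a, h =>
    let z := L - swR
    let c0 := L ^ 3 - gamR * z ^ 3 + a ^ 3 - 2
    let c1 := 3 * sl * (L * L - gamR * z * z) + 3 * a * a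
    let c2 := 3 * sl * sl * (L - gamR * z) + 3 * a
    let c3 := sl ^ 3 * (1 - gamR) + 1
    decide (0 ≤ sg * c0) && decide (0 ≤ sg * (c0 + c1 * h / 3)) &&
        decide (0 ≤ sg * (c0 + 2 * c1 * h / 3 + c2 * h * h / 3)) &&
        decide (0 ≤ sg * (c0 + c1 * h + c2 * h * h + c3 * h * h * h)) ||
      match n with
      | 0 => false
      | m + 1 => bandTest sg sl m L a (h / 2) && bandTest sg sl m (L + sl * (h / 2)) (a + h / 2) (h / 2)

/-- A segment contains the curve. -/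
def Seg.ok (S : Seg) : Bool :=
  decide (S.a < S.b) && decide (0 < S.h) &&
    bandTest (-1) S.sl 8 S.lo S.a (S.b - S.a) && bandTest 1 S.sl 8 (S.lo + S.h) S.a (S.b - S.a) &&
    decide (1 ≤ min S.lo (S.lo + S.sl * (S.b - S.a))) &&
    decide (max S.lo (S.lo + S.sl * (S.b - S.a)) + S.h ≤ 141 / 100)

noncomputable section

lemma bandTest_sound (sg sl : ℚ) : ∀ (n : ℕ) {L a h : ℚ}, bandTest sg sl n L a h = true →
    ∀ u : ℝ, 0 ≤ u → u ≤ h → 0 ≤ (sg : ℝ) * (qHi ((L : ℝ) + sl * u) + ((a : ℝ) + u) ^ 3 - 2) := by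
  intro n
  induction n with
  | zero => exact fun {L a h} hb => leaf hb (by simp [bandTest] at hb ⊢; exact hb)
  | succ m ih =>
    intro L a h hb u u0 u1
    rw [bandTest] at hb
    simp only [Bool.or_eq_true, Bool.and_eq_true] at hb
    rcases hb with hb | ⟨h1, h2⟩
    · exact leaf (n := 0) (by simp [bandTest]; simpa using hb) (by simpa using hb) u u0 u1
    · rcases le_total u ((h / 2 : ℚ) : ℝ) with hu | hu
      · exact ih h1 u u0 hu
      · have := ih h2 (u - (h / 2 : ℚ)) (sub_nonneg.2 hu) (by push_cast; linarith)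
        push_cast at this ⊢
        convert this using 4 <;> ring_nf
where
  leaf {n : ℕ} {L a h : ℚ} (_ : bandTest sg sl n L a h = true)
      (hb :
        let z := L - swR
        let c0 := L ^ 3 - gamR * z ^ 3 + a ^ 3 - 2
        let c1 := 3 * sl * (L * L - gamR * z * z) + 3 * a * a
        let c2 := 3 * sl * sl * (L - gamR * z) + 3 * a
        let c3 := sl ^ 3 * (1 - gamR) + 1
        ((0 ≤ sg * c0 ∧ 0 ≤ sg * (c0 + c1 * h / 3)) ∧
          0 ≤ sg * (c0 + 2 * c1 * h / 3 + c2 * h * h / 3)) ∧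
          0 ≤ sg * (c0 + c1 * h + c2 * h * h + c3 * h * h * h))
      (u : ℝ) (u0 : 0 ≤ u) (u1 : u ≤ h) :
      0 ≤ (sg : ℝ) * (qHi ((L : ℝ) + sl * u) + ((a : ℝ) + u) ^ 3 - 2) := by
    obtain ⟨⟨⟨b0, b1⟩, b2⟩, b3⟩ := hb
    rcases eq_or_lt_of_le (u0.trans u1) with hh | hh
    · obtain rfl : u = 0 := le_antisymm (u1.trans_eq hh.symm) u0
      have e : (0 : ℝ) ≤ ((sg * (L ^ 3 - gamR * (L - swR) ^ 3 + a ^ 3 - 2) : ℚ) : ℝ) := by
        exact_mod_cast b0
      refine e.trans (le_of_eq ?_)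
      simp only [qHi, npw_real, Lit.lit]
      push_cast
      ring
    · have e0 := (Rat.cast_nonneg (K := ℝ)).2 b0
      have e1 := (Rat.cast_nonneg (K := ℝ)).2 b1
      have e2 := (Rat.cast_nonneg (K := ℝ)).2 b2
      have e3 := (Rat.cast_nonneg (K := ℝ)).2 b3
      obtain ⟨t, t0, t1, rfl⟩ : ∃ t : ℝ, 0 ≤ t ∧ t ≤ 1 ∧ u = h * t :=
        ⟨u / h, div_nonneg u0 hh.le, (div_le_one hh).2 u1, by field_simp⟩
      have s0 : 0 ≤ 1 - t := by linarith
      have key := add_nonneg (add_nonneg (add_nonneg (mul_nonneg e0 (pow_nonneg s0 3))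
        (mul_nonneg e1 (mul_nonneg (mul_nonneg (show (0 : ℝ) ≤ 3 by norm_num) t0) (pow_nonneg s0 2))))
        (mul_nonneg e2 (mul_nonneg (mul_nonneg (show (0 : ℝ) ≤ 3 by norm_num) (pow_nonneg t0 2)) s0)))
        (mul_nonneg e3 (pow_nonneg t0 3))
      refine key.trans (le_of_eq ?_)
      simp only [qHi, npw_real, Lit.lit]
      push_cast
      ring

lemma qHi_le {a b : ℝ} (ha : 1 ≤ a) (hab : a ≤ b) (hb : b ≤ 141 / 100) : qHi a ≤ qHi b := by
  simp only [qHi, npw_real, Lit.lit, gamR, swR]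
  push_cast
  have h1 : 3 ≤ a * a + a * b + b * b := by nlinarith
  have h2 : (a - 11 / 10) * (a - 11 / 10) + (a - 11 / 10) * (b - 11 / 10) +
      (b - 11 / 10) * (b - 11 / 10) ≤ 3 / 10 := by
    nlinarith [mul_nonneg (show 0 ≤ 31 / 100 - (b - 11 / 10) by linarith)
      (show 0 ≤ b - 11 / 10 + 31 / 100 by linarith), mul_nonneg (show 0 ≤ 31 / 100 - (a - 11 / 10) by linarith)
      (show 0 ≤ a - 11 / 10 + 31 / 100 by linarith), sq_nonneg (a - b)]
  nlinarith [mul_nonneg (sub_nonneg.2 hab) (show (0 : ℝ) ≤ (a * a + a * b + b * b) -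
    304496 / 68921 * ((a - 11 / 10) * (a - 11 / 10) + (a - 11 / 10) * (b - 11 / 10) +
      (b - 11 / 10) * (b - 11 / 10)) by nlinarith)]

/-- The curve stays in the band of a good segment. -/
lemma Seg.mem {S : Seg} (h : S.ok = true) {f g : ℝ} (ha : (S.a : ℝ) ≤ g) (hb : g ≤ S.b)
    (f1 : 1 ≤ f) (f2 : f ≤ 141 / 100) (hc : qHi f + g ^ 3 = 2) :
    (S.lo : ℝ) + S.sl * (g - S.a) ≤ f ∧ f ≤ (S.lo : ℝ) + S.sl * (g - S.a) + S.h := by
  simp only [Seg.ok, Bool.and_eq_true, decide_eq_true_eq] at h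
  obtain ⟨⟨⟨⟨⟨-, hh⟩, blo⟩, bhi⟩, r0⟩, r1⟩ := h
  have hu : g - (S.a : ℝ) ≤ ((S.b - S.a : ℚ) : ℝ) := by push_cast; linarith
  have dn := bandTest_sound _ _ _ blo _ (sub_nonneg.2 ha) hu
  have up := bandTest_sound _ _ _ bhi _ (sub_nonneg.2 ha) hu
  push_cast at dn up
  rw [show (S.a : ℝ) + (g - S.a) = g by ring] at dn up
  obtain ⟨p, q⟩ := le_min_iff.1 r0
  obtain ⟨p', q'⟩ := max_le_iff.1 (le_sub_iff_add_le.2 r1)
  have p := (Rat.cast_le (K := ℝ)).2 p
  have q := (Rat.cast_le (K := ℝ)).2 q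
  have p' := (Rat.cast_le (K := ℝ)).2 p'
  have q' := (Rat.cast_le (K := ℝ)).2 q'
  have hh := (Rat.cast_pos (K := ℝ)).2 hh
  push_cast at p q p' q'
  set t := (S.lo : ℝ) + S.sl * (g - S.a) with ht
  have t0 : 1 ≤ t ∧ t + S.h ≤ 141 / 100 := by
    rcases le_total (0 : ℝ) S.sl with hs | hs
    · constructor <;> nlinarith [mul_le_mul_of_nonneg_left hu hs, mul_nonneg hs (sub_nonneg.2 ha)]
    · constructor <;> nlinarith [mul_le_mul_of_nonpos_left hu hs, mul_nonpos_of_nonpos_of_nonneg hs (sub_nonneg.2 ha)]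
  refine ⟨?_, ?_⟩
  · by_contra hlt
    push Not at hlt
    have h' := qHi_le f1 hlt.le (by linarith)
    have hlt' : qHi f < qHi t := by
      rcases h'.lt_or_eq with h'' | h''
      · exact h''
      · exact absurd h'' (qHi_ne f1 hlt (by linarith))
    linarith
  · by_contra hlt
    push Not at hlt
    rw [show (S.lo : ℝ) + S.h + S.sl * (g - S.a) = t + S.h by ring] at up
    have h' := qHi_le (by linarith : 1 ≤ t + S.h) hlt.le f2
    rcases h'.lt_or_eq with h'' | h''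
    · linarith
    · exact qHi_ne (by linarith : 1 ≤ t + S.h) hlt f2 h''
where
  qHi_ne {a b : ℝ} (ha : 1 ≤ a) (hab : a < b) (hb : b ≤ 141 / 100) : qHi a ≠ qHi b := by
    intro he
    have h1 := qHi_le ha (show a ≤ (a + b) / 2 by linarith) (by linarith)
    have h2 := qHi_le (show 1 ≤ (a + b) / 2 by linarith) (show (a + b) / 2 ≤ b by linarith) hb
    simp only [qHi, npw_real, Lit.lit, gamR, swR] at h1 h2 he
    push_cast at h1 h2 he
    nlinarith [pow_pos (sub_pos.2 hab) 2, pow_pos (sub_pos.2 hab) 3]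

/-- A curve point past the switch has `g ≤ 7 / 8`. -/
lemma far_g_le {f g : ℝ} (hf : 11 / 10 ≤ f) (f2 : f ≤ 141 / 100) (hc : qHi f + g ^ 3 = 2) :
    g ≤ 7 / 8 := by
  have := qHi_le (show (1 : ℝ) ≤ 11 / 10 by norm_num) hf f2
  rw [show qHi (11 / 10 : ℝ) = 1331 / 1000 by simp only [qHi, npw_real, Lit.lit, gamR, swR]; norm_num]
    at this
  nlinarith [sq_nonneg (g - 7 / 8), sq_nonneg g, sq_nonneg (g + 7 / 8)]

end

end Vale.Agent.P211.Cert.Contact
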