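import Vale.Agent.P211.Cert.Contact.Data.C1x10
import Vale.Agent.P211.Cert.Contact.Data.C1x11
import Vale.Agent.P211.Cert.Contact.Data.C2x10
import Vale.Agent.P211.Cert.Contact.Data.C2x11
import Vale.Agent.P211.Cert.Contact.Data.C3x10
import Vale.Agent.P211.Cert.Contact.Data.C3x11
import Vale.Agent.P211.Cert.Contact.Data.MultA
import Vale.Agent.P211.Cert.Contact.Data.MultB
import Vale.Agent.P211.Cert.Contact.Data.MultC
import Vale.Agent.P211.Cert.Contact.Data.MultD
import Vale.Agent.P211.Cert.Contact.Data.MultE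
import Vale.Agent.P211.Cert.Contact.Data.MultF
import Vale.Agent.P211.Cert.Contact.Data.N1x01
import Vale.Agent.P211.Cert.Contact.Data.N1x10
import Vale.Agent.P211.Cert.Contact.Data.N1x11
import Vale.Agent.P211.Cert.Contact.Data.N2x01
import Vale.Agent.P211.Cert.Contact.Data.N2x10
import Vale.Agent.P211.Cert.Contact.Data.N2x11
import Vale.Agent.P211.Cert.Contact.Data.N3x01
import Vale.Agent.P211.Cert.Contact.Data.N3x10
import Vale.Agent.P211.Cert.Contact.Data.N3x11
import Vale.Agent.P211.Cert.Contact.Data.S0x10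
import Vale.Agent.P211.Cert.Contact.Data.S0x11
import Vale.Agent.P211.Cert.Contact.Data.S1x01
import Vale.Agent.P211.Cert.Contact.Data.S1x10
import Vale.Agent.P211.Cert.Contact.Data.S1x11
import Vale.Agent.P211.Cert.Contact.Data.S2x01
import Vale.Agent.P211.Cert.Contact.Data.S2x10
import Vale.Agent.P211.Cert.Contact.Data.S2x11
import Vale.Agent.P211.Cert.Contact.Data.S3x01
import Vale.Agent.P211.Cert.Contact.Data.S3x10
import Vale.Agent.P211.Cert.Contact.Data.S3x11
import Vale.Agent.P211.Cert.Contact.Data.S4x01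
import Vale.Agent.P211.Cert.Contact.Data.S4x10
import Vale.Agent.P211.Cert.Contact.Data.S4x11
import Vale.Agent.P211.Cert.Contact.Data.S5x01
import Vale.Agent.P211.Cert.Contact.Data.S5x10
import Vale.Agent.P211.Cert.Contact.Data.S5x11
import Vale.Agent.P211.Cert.Contact.Data.S6x01
import Vale.Agent.P211.Cert.Contact.Data.S6x10
import Vale.Agent.P211.Cert.Contact.Data.S6x11
import Vale.Agent.P211.Cert.Contact.Data.S7x01
import Vale.Agent.P211.Cert.Contact.Data.S7x10
import Vale.Agent.P211.Cert.Contact.Data.S7x11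
import Vale.Agent.P211.Cert.Contact.Data.S8x01
import Vale.Agent.P211.Cert.Contact.Data.S8x10
import Vale.Agent.P211.Cert.Contact.Data.S8x11
import Vale.Agent.P211.Cert.Contact.Data.S9x01
import Vale.Agent.P211.Cert.Contact.Data.S9x10
import Vale.Agent.P211.Cert.Contact.Data.S9x11
import Vale.Agent.P211.Cert.Contact.Data.S10x01
import Vale.Agent.P211.Cert.Contact.Data.S10x10
import Vale.Agent.P211.Cert.Contact.Data.S10x11
import Vale.Agent.P211.Cert.Contact.Data.S11x01
import Vale.Agent.P211.Cert.Contact.Data.S11x10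
import Vale.Agent.P211.Cert.Contact.Data.S11x11
import Vale.Agent.P211.Cert.Contact.Data.S12x01
import Vale.Agent.P211.Cert.Contact.Data.S12x10
import Vale.Agent.P211.Cert.Contact.Data.S12x11
import Vale.Agent.P211.Cert.Contact.Data.S13x01
import Vale.Agent.P211.Cert.Contact.Data.S13x10
import Vale.Agent.P211.Cert.Contact.Data.S13x11
import Vale.Agent.P211.Cert.Contact.Data.S14x01
import Vale.Agent.P211.Cert.Contact.Data.S14x10
import Vale.Agent.P211.Cert.Contact.Data.S14x11
import Vale.Agent.P211.Cert.Contact.Data.S15x01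
import Vale.Agent.P211.Cert.Contact.Data.S15x10
import Vale.Agent.P211.Cert.Contact.Data.S15x11
import Vale.Agent.P211.Cert.Contact.Data.S16x01
import Vale.Agent.P211.Cert.Contact.Data.S16x10
import Vale.Agent.P211.Cert.Contact.Data.S16x11
import Vale.Agent.P211.Cert.Contact.Data.S17x01
import Vale.Agent.P211.Cert.Contact.Data.S17x10
import Vale.Agent.P211.Cert.Contact.Data.S17x11
import Vale.Agent.P211.Cert.Contact.Data.S18x01
import Vale.Agent.P211.Cert.Contact.Data.S18x10
import Vale.Agent.P211.Cert.Contact.Data.S18x11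
import Vale.Agent.P211.Cert.Contact.Data.S19x01
import Vale.Agent.P211.Cert.Contact.Data.S19x10
import Vale.Agent.P211.Cert.Contact.Data.S19x11
import Vale.Agent.P211.Cert.Contact.Data.S20x01
import Vale.Agent.P211.Cert.Contact.Data.S20x10
import Vale.Agent.P211.Cert.Contact.Data.S20x11
import Vale.Agent.P211.Cert.Contact.Data.S21x01
import Vale.Agent.P211.Cert.Contact.Data.S21x10
import Vale.Agent.P211.Cert.Contact.Data.S21x11
import Vale.Agent.P211.Cert.Contact.Data.S22x01
import Vale.Agent.P211.Cert.Contact.Data.S22x10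
import Vale.Agent.P211.Cert.Contact.Data.S22x11
import Vale.Agent.P211.Cert.Contact.Data.S23x01
import Vale.Agent.P211.Cert.Contact.Data.S23x10
import Vale.Agent.P211.Cert.Contact.Data.S23x11

/-!
P211, the contact conditions of the certificate vector, from the checked charts (generated).
-/

namespace Vale.Agent.P211.Cert

open Contact Contact.Data

/-- The checked family. -/
theorem familyV : Family vecV where
  weight := vecV_weight
  near := by
    simp only [List.forall_mem_cons]
    exact ⟨⟨chartN1_11, chartN2_11, chartN3_11⟩, ⟨chartN1_01, chartN2_01, chartN3_01⟩, ⟨chartN1_10, chartN2_10, chartN3_10⟩, by simp⟩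
  segFull := by
    intro S hS be hbe
    simp only [List.mem_cons, List.not_mem_nil, or_false] at hbe
    obtain ⟨i, hi, rfl⟩ := List.getElem_of_mem hS
    have hi24 : i < 24 := hi
    rcases hbe with rfl | rfl
    · interval_cases i
      · rw [show (if (segs[0]'(by decide)).b ≤ 3 / 5 then (0 : ℚ) else 1) = 0 by decide +kernel]
        exact chartS0_11
      · rw [show (if (segs[1]'(by decide)).b ≤ 3 / 5 then (0 : ℚ) else 1) = 0 by decide +kernel]
        exact chartS1_11
      · rw [show (if (segs[2]'(by decide)).b ≤ 3 / 5 then (0 : ℚ) else 1) = 0 by decide +kernel]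
        exact chartS2_11
      · rw [show (if (segs[3]'(by decide)).b ≤ 3 / 5 then (0 : ℚ) else 1) = 0 by decide +kernel]
        exact chartS3_11
      · rw [show (if (segs[4]'(by decide)).b ≤ 3 / 5 then (0 : ℚ) else 1) = 0 by decide +kernel]
        exact chartS4_11
      · rw [show (if (segs[5]'(by decide)).b ≤ 3 / 5 then (0 : ℚ) else 1) = 0 by decide +kernel]
        exact chartS5_11
      · rw [show (if (segs[6]'(by decide)).b ≤ 3 / 5 then (0 : ℚ) else 1) = 0 by decide +kernel]
        exact chartS6_11
      · rw [show (if (segs[7]'(by decide)).b ≤ 3 / 5 then (0 : ℚ) else 1) = 0 by decide +kernel]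
        exact chartS7_11
      · rw [show (if (segs[8]'(by decide)).b ≤ 3 / 5 then (0 : ℚ) else 1) = 0 by decide +kernel]
        exact chartS8_11
      · rw [show (if (segs[9]'(by decide)).b ≤ 3 / 5 then (0 : ℚ) else 1) = 0 by decide +kernel]
        exact chartS9_11
      · rw [show (if (segs[10]'(by decide)).b ≤ 3 / 5 then (0 : ℚ) else 1) = 0 by decide +kernel]
        exact chartS10_11
      · rw [show (if (segs[11]'(by decide)).b ≤ 3 / 5 then (0 : ℚ) else 1) = 0 by decide +kernel]
        exact chartS11_11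
      · rw [show (if (segs[12]'(by decide)).b ≤ 3 / 5 then (0 : ℚ) else 1) = 1 by decide +kernel]
        exact chartS12_11
      · rw [show (if (segs[13]'(by decide)).b ≤ 3 / 5 then (0 : ℚ) else 1) = 1 by decide +kernel]
        exact chartS13_11
      · rw [show (if (segs[14]'(by decide)).b ≤ 3 / 5 then (0 : ℚ) else 1) = 1 by decide +kernel]
        exact chartS14_11
      · rw [show (if (segs[15]'(by decide)).b ≤ 3 / 5 then (0 : ℚ) else 1) = 1 by decide +kernel]
        exact chartS15_11
      · rw [show (if (segs[16]'(by decide)).b ≤ 3 / 5 then (0 : ℚ) else 1) = 1 by decide +kernel]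
        exact chartS16_11
      · rw [show (if (segs[17]'(by decide)).b ≤ 3 / 5 then (0 : ℚ) else 1) = 1 by decide +kernel]
        exact chartS17_11
      · rw [show (if (segs[18]'(by decide)).b ≤ 3 / 5 then (0 : ℚ) else 1) = 1 by decide +kernel]
        exact chartS18_11
      · rw [show (if (segs[19]'(by decide)).b ≤ 3 / 5 then (0 : ℚ) else 1) = 1 by decide +kernel]
        exact chartS19_11
      · rw [show (if (segs[20]'(by decide)).b ≤ 3 / 5 then (0 : ℚ) else 1) = 1 by decide +kernel]
        exact chartS20_11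
      · rw [show (if (segs[21]'(by decide)).b ≤ 3 / 5 then (0 : ℚ) else 1) = 1 by decide +kernel]
        exact chartS21_11
      · rw [show (if (segs[22]'(by decide)).b ≤ 3 / 5 then (0 : ℚ) else 1) = 1 by decide +kernel]
        exact chartS22_11
      · rw [show (if (segs[23]'(by decide)).b ≤ 3 / 5 then (0 : ℚ) else 1) = 1 by decide +kernel]
        exact chartS23_11
    · interval_cases i
      · rw [show (if (segs[0]'(by decide)).b ≤ 3 / 5 then (0 : ℚ) else 1) = 0 by decide +kernel]
        exact chartS0_10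
      · rw [show (if (segs[1]'(by decide)).b ≤ 3 / 5 then (0 : ℚ) else 1) = 0 by decide +kernel]
        exact chartS1_10
      · rw [show (if (segs[2]'(by decide)).b ≤ 3 / 5 then (0 : ℚ) else 1) = 0 by decide +kernel]
        exact chartS2_10
      · rw [show (if (segs[3]'(by decide)).b ≤ 3 / 5 then (0 : ℚ) else 1) = 0 by decide +kernel]
        exact chartS3_10
      · rw [show (if (segs[4]'(by decide)).b ≤ 3 / 5 then (0 : ℚ) else 1) = 0 by decide +kernel]
        exact chartS4_10
      · rw [show (if (segs[5]'(by decide)).b ≤ 3 / 5 then (0 : ℚ) else 1) = 0 by decide +kernel]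
        exact chartS5_10
      · rw [show (if (segs[6]'(by decide)).b ≤ 3 / 5 then (0 : ℚ) else 1) = 0 by decide +kernel]
        exact chartS6_10
      · rw [show (if (segs[7]'(by decide)).b ≤ 3 / 5 then (0 : ℚ) else 1) = 0 by decide +kernel]
        exact chartS7_10
      · rw [show (if (segs[8]'(by decide)).b ≤ 3 / 5 then (0 : ℚ) else 1) = 0 by decide +kernel]
        exact chartS8_10
      · rw [show (if (segs[9]'(by decide)).b ≤ 3 / 5 then (0 : ℚ) else 1) = 0 by decide +kernel]
        exact chartS9_10
      · rw [show (if (segs[10]'(by decide)).b ≤ 3 / 5 then (0 : ℚ) else 1) = 0 by decide +kernel]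
        exact chartS10_10
      · rw [show (if (segs[11]'(by decide)).b ≤ 3 / 5 then (0 : ℚ) else 1) = 0 by decide +kernel]
        exact chartS11_10
      · rw [show (if (segs[12]'(by decide)).b ≤ 3 / 5 then (0 : ℚ) else 1) = 1 by decide +kernel]
        exact chartS12_10
      · rw [show (if (segs[13]'(by decide)).b ≤ 3 / 5 then (0 : ℚ) else 1) = 1 by decide +kernel]
        exact chartS13_10
      · rw [show (if (segs[14]'(by decide)).b ≤ 3 / 5 then (0 : ℚ) else 1) = 1 by decide +kernel]
        exact chartS14_10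
      · rw [show (if (segs[15]'(by decide)).b ≤ 3 / 5 then (0 : ℚ) else 1) = 1 by decide +kernel]
        exact chartS15_10
      · rw [show (if (segs[16]'(by decide)).b ≤ 3 / 5 then (0 : ℚ) else 1) = 1 by decide +kernel]
        exact chartS16_10
      · rw [show (if (segs[17]'(by decide)).b ≤ 3 / 5 then (0 : ℚ) else 1) = 1 by decide +kernel]
        exact chartS17_10
      · rw [show (if (segs[18]'(by decide)).b ≤ 3 / 5 then (0 : ℚ) else 1) = 1 by decide +kernel]
        exact chartS18_10
      · rw [show (if (segs[19]'(by decide)).b ≤ 3 / 5 then (0 : ℚ) else 1) = 1 by decide +kernel]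
        exact chartS19_10
      · rw [show (if (segs[20]'(by decide)).b ≤ 3 / 5 then (0 : ℚ) else 1) = 1 by decide +kernel]
        exact chartS20_10
      · rw [show (if (segs[21]'(by decide)).b ≤ 3 / 5 then (0 : ℚ) else 1) = 1 by decide +kernel]
        exact chartS21_10
      · rw [show (if (segs[22]'(by decide)).b ≤ 3 / 5 then (0 : ℚ) else 1) = 1 by decide +kernel]
        exact chartS22_10
      · rw [show (if (segs[23]'(by decide)).b ≤ 3 / 5 then (0 : ℚ) else 1) = 1 by decide +kernel]
        exact chartS23_10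
  segPart := by
    intro S hS hb
    obtain ⟨i, hi, rfl⟩ := List.getElem_of_mem hS
    have hi24 : i < 24 := hi
    interval_cases i
    · exact absurd hb (by norm_num [segs])
    · rw [show (if (segs[1]'(by decide)).b ≤ 3 / 5 then (0 : ℚ) else 1) = 0 by decide +kernel]
      exact chartS1_01
    · rw [show (if (segs[2]'(by decide)).b ≤ 3 / 5 then (0 : ℚ) else 1) = 0 by decide +kernel]
      exact chartS2_01
    · rw [show (if (segs[3]'(by decide)).b ≤ 3 / 5 then (0 : ℚ) else 1) = 0 by decide +kernel]
      exact chartS3_01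
    · rw [show (if (segs[4]'(by decide)).b ≤ 3 / 5 then (0 : ℚ) else 1) = 0 by decide +kernel]
      exact chartS4_01
    · rw [show (if (segs[5]'(by decide)).b ≤ 3 / 5 then (0 : ℚ) else 1) = 0 by decide +kernel]
      exact chartS5_01
    · rw [show (if (segs[6]'(by decide)).b ≤ 3 / 5 then (0 : ℚ) else 1) = 0 by decide +kernel]
      exact chartS6_01
    · rw [show (if (segs[7]'(by decide)).b ≤ 3 / 5 then (0 : ℚ) else 1) = 0 by decide +kernel]
      exact chartS7_01
    · rw [show (if (segs[8]'(by decide)).b ≤ 3 / 5 then (0 : ℚ) else 1) = 0 by decide +kernel]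
      exact chartS8_01
    · rw [show (if (segs[9]'(by decide)).b ≤ 3 / 5 then (0 : ℚ) else 1) = 0 by decide +kernel]
      exact chartS9_01
    · rw [show (if (segs[10]'(by decide)).b ≤ 3 / 5 then (0 : ℚ) else 1) = 0 by decide +kernel]
      exact chartS10_01
    · rw [show (if (segs[11]'(by decide)).b ≤ 3 / 5 then (0 : ℚ) else 1) = 0 by decide +kernel]
      exact chartS11_01
    · rw [show (if (segs[12]'(by decide)).b ≤ 3 / 5 then (0 : ℚ) else 1) = 1 by decide +kernel]
      exact chartS12_01
    · rw [show (if (segs[13]'(by decide)).b ≤ 3 / 5 then (0 : ℚ) else 1) = 1 by decide +kernel]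
      exact chartS13_01
    · rw [show (if (segs[14]'(by decide)).b ≤ 3 / 5 then (0 : ℚ) else 1) = 1 by decide +kernel]
      exact chartS14_01
    · rw [show (if (segs[15]'(by decide)).b ≤ 3 / 5 then (0 : ℚ) else 1) = 1 by decide +kernel]
      exact chartS15_01
    · rw [show (if (segs[16]'(by decide)).b ≤ 3 / 5 then (0 : ℚ) else 1) = 1 by decide +kernel]
      exact chartS16_01
    · rw [show (if (segs[17]'(by decide)).b ≤ 3 / 5 then (0 : ℚ) else 1) = 1 by decide +kernel]
      exact chartS17_01
    · rw [show (if (segs[18]'(by decide)).b ≤ 3 / 5 then (0 : ℚ) else 1) = 1 by decide +kernel]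
      exact chartS18_01
    · rw [show (if (segs[19]'(by decide)).b ≤ 3 / 5 then (0 : ℚ) else 1) = 1 by decide +kernel]
      exact chartS19_01
    · rw [show (if (segs[20]'(by decide)).b ≤ 3 / 5 then (0 : ℚ) else 1) = 1 by decide +kernel]
      exact chartS20_01
    · rw [show (if (segs[21]'(by decide)).b ≤ 3 / 5 then (0 : ℚ) else 1) = 1 by decide +kernel]
      exact chartS21_01
    · rw [show (if (segs[22]'(by decide)).b ≤ 3 / 5 then (0 : ℚ) else 1) = 1 by decide +kernel]
      exact chartS22_01
    · rw [show (if (segs[23]'(by decide)).b ≤ 3 / 5 then (0 : ℚ) else 1) = 1 by decide +kernel]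
      exact chartS23_01
  corner := by
    simp only [List.forall_mem_cons]
    exact ⟨⟨chartC1_11, chartC2_11, chartC3_11⟩, ⟨chartC1_10, chartC2_10, chartC3_10⟩, by simp⟩

/-- The checked family of the multipliers. -/
theorem multFamilyV : MultFamily vecV where
  wt3 := vecV_weight.2.2.2.1
  wt4 := vecV_weight.2.2.2.2
  good := by
    intro S hS
    obtain ⟨i, hi, rfl⟩ := List.getElem_of_mem hS
    have hi30 : i < 30 := hi
    interval_cases i
    · exact ⟨chartM3_0, chartM4_0⟩
    · exact ⟨chartM3_1, chartM4_1⟩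
    · exact ⟨chartM3_2, chartM4_2⟩
    · exact ⟨chartM3_3, chartM4_3⟩
    · exact ⟨chartM3_4, chartM4_4⟩
    · exact ⟨chartM3_5, chartM4_5⟩
    · exact ⟨chartM3_6, chartM4_6⟩
    · exact ⟨chartM3_7, chartM4_7⟩
    · exact ⟨chartM3_8, chartM4_8⟩
    · exact ⟨chartM3_9, chartM4_9⟩
    · exact ⟨chartM3_10, chartM4_10⟩
    · exact ⟨chartM3_11, chartM4_11⟩
    · exact ⟨chartM3_12, chartM4_12⟩
    · exact ⟨chartM3_13, chartM4_13⟩
    · exact ⟨chartM3_14, chartM4_14⟩
    · exact ⟨chartM3_15, chartM4_15⟩
    · exact ⟨chartM3_16, chartM4_16⟩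
    · exact ⟨chartM3_17, chartM4_17⟩
    · exact ⟨chartM3_18, chartM4_18⟩
    · exact ⟨chartM3_19, chartM4_19⟩
    · exact ⟨chartM3_20, chartM4_20⟩
    · exact ⟨chartM3_21, chartM4_21⟩
    · exact ⟨chartM3_22, chartM4_22⟩
    · exact ⟨chartM3_23, chartM4_23⟩
    · exact ⟨chartM3_24, chartM4_24⟩
    · exact ⟨chartM3_25, chartM4_25⟩
    · exact ⟨chartM3_26, chartM4_26⟩
    · exact ⟨chartM3_27, chartM4_27⟩
    · exact ⟨chartM3_28, chartM4_28⟩
    · exact ⟨chartM3_29, chartM4_29⟩

/-- The contact condition of the vector. -/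
theorem contact_vecV (f g A al be : ℝ) (hbox : InBox f g A) (hgf : g ≤ f)
    (hc : qLev f + qLev g = 2) (hcase : ContactCase f g al be) (H φ : ℝ) (hφ : 0 ≤ φ) :
    target rhoV f g A ≤ contactForm vecV f g A A al be H φ :=
  contact_of_family familyV f g A al be hbox hgf hc hcase H φ hφ

/-- The sign of the multipliers of the vector. -/
theorem mult_vecV (f g A : ℝ) (hbox : InBox f g A) (hgf : g ≤ f) (hc : qLev f + qLev g = 2) :
    0 ≤ vecV.Y3.val (f - g) (2 - f - g) A ∧ 0 ≤ vecV.Y4.val (f - g) (2 - f - g) A :=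
  mult_of_family multFamilyV f g A hbox hgf hc

end Vale.Agent.P211.Cert
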