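import Vale.Agent.P211.Cert.Contact.Charts
import Vale.Agent.P211.Cert.Check.Root

/-!
P211, what a checked root says: the contact condition at every point of the chart at which the
constraints are nonnegative.
-/

namespace Vale.Agent.P211.Cert.Contact

open Chart
open Check (Good rootsOK rootCfg rootSt nonneg_of_good tri V3)
open Vale.Agent.P098.Check6 (quadForm)
open Vale.Agent.P098.Cert6.Kron (RootPar Deg Poly parOK evalR deg?)

/-- The tests of the numerators. -/
def polysOK (V : Vec) (S : Spec) (c : Case) (q : ℕ) (d : Deg) : Bool :=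
  (((S.entries V c).zip dropA).all fun a =>
    finishOK q (d.1, d.2.1, d.2.2.1, d.2.2.2 - lossA d a.2) a.1 &&
      Nat.ble (lossA d a.2) d.2.2.2) && S.aux.all (finishOK q d)

/-- The cone: the constant, and the force when it is counted from zero, are nonnegative. -/
def coneC (S : Spec) : V3 Bool := ⟨true, false, decide (S.sh = 0)⟩

noncomputable section

variable {V : Vec} {S : Spec} {c : Case} {q : ℕ} {d : Deg} {R : RootPar}
  {fs : List Vale.Agent.P098.Check6.Face}

lemma polys_length : (polys V S c q d).length = 6 + S.cons.length := by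
  simp [polys, Spec.entries, Spec.aux, shift, entries, dropA]; omega

lemma evalR_shaped {p : Fin 4 → ℝ} (hp : p 3 < 1) {a : HP} {t : ℕ}
    (h : finishOK q (d.1, d.2.1, d.2.2.1, d.2.2.2 - t) a = true) :
    evalR p (pad1 (finish q (d.1, d.2.1, d.2.2.1, d.2.2.2 - t) a) 3 t) =
      (q + 1 : ℕ) * (1 - p 3) ^ (d.2.2.2 - t) * val p a := by
  rw [evalR_pad1, evalR_finish hp h]

/-- The six entries at the values of a checked root form a form nonnegative on the cone. -/
theorem form6_nonneg (hpar : parOK R d = true) (hok : polysOK V S c q d = true)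
    (hall : rootsOK R d (polys V S c q d) fs = true)
    (hgood : Good (coneC S) (rootCfg R d) (rootSt R d (polys V S c q d) fs))
    {p : Fin 4 → ℝ} (hp : ∀ i, p i ∈ Set.Icc (0 : ℝ) 1) (hp3 : p 3 < 1)
    (hcons : ∀ a ∈ S.cons, 0 ≤ val p a) (H φ : ℝ) (hφ : S.sh = 0 → 0 ≤ φ) :
    0 ≤ form6 ((S.entries V c).map (val p)) H φ := by
  simp only [polysOK, Bool.and_eq_true, List.all_eq_true] at hok
  obtain ⟨hent, hcon⟩ := hok
  have hlen := polys_length (V := V) (S := S) (c := c) (q := q) (d := d)
  have haux : ∀ i, 6 ≤ i → i < (polys V S c q d).length →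
      0 ≤ evalR p ((polys V S c q d).getD i (.const 0)) := by
    intro i h6 hi
    obtain ⟨j, rfl⟩ := Nat.exists_eq_add_of_le h6
    have hj : j < S.cons.length := by omega
    have hja : j < S.aux.length := by simpa [Spec.aux] using hj
    have he : (polys V S c q d).getD (6 + j) (.const 0) = finish q d S.aux[j] := by
      have hl6 : (((S.entries V c).zip dropA).map fun a =>
          pad1 (finish q (d.1, d.2.1, d.2.2.1, d.2.2.2 - lossA d a.2) a.1) 3 (lossA d a.2)).length
            = 6 := by
        simp [Spec.entries, shift, entries, dropA]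
      rw [List.getD_eq_getElem _ _ hi]
      simp only [polys]
      rw [List.getElem_append_right (by omega)]
      simp [hl6]
    rw [he, evalR_finish hp3 (hcon _ (List.getElem_mem hja))]
    refine mul_nonneg (mul_nonneg (Nat.cast_nonneg _) (pow_nonneg (by linarith) _)) ?_
    simp only [Spec.aux, List.getElem_map, val_mul, val_lit]
    exact mul_nonneg (by norm_num [consBoost, Lit.lit]) (hcons _ (List.getElem_mem hj))
  set u := lossA d 1 with hu
  have hy : (0 : ℝ) < 1 - p 3 := by linarith
  have h := nonneg_of_good hpar (by omega) hall hgood p hp haux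
    ![1, H * (1 - p 3) ^ u, φ * (1 - p 3) ^ u]
    (fun i hi => by
      fin_cases i <;> simp [coneC, V3.get] at hi ⊢
      exact mul_nonneg (hφ hi) (pow_nonneg hy.le _))
  obtain ⟨e0, e1, e2, e3, e4, e5, he⟩ : ∃ e0 e1 e2 e3 e4 e5,
      S.entries V c = [e0, e1, e2, e3, e4, e5] := ⟨_, _, _, _, _, _, rfl⟩
  have hent' := fun a (ha : a ∈ (S.entries V c).zip dropA) => hent a ha
  rw [he] at hent' ⊢
  simp only [dropA, List.zip_cons_cons, List.zip_nil_right, List.mem_cons, List.not_mem_nil,
    or_false, Nat.ble_eq] at hent'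
  have g0 := hent' (e0, 0) (by simp)
  have g1 := hent' (e1, 1) (by simp)
  have g2 := hent' (e2, 1) (by simp)
  have g3 := hent' (e3, 2) (by simp)
  have g4 := hent' (e4, 2) (by simp)
  have g5 := hent' (e5, 2) (by simp)
  simp only [quadForm, Fin.sum_univ_three, polys, he, dropA, List.zip_cons_cons,
    List.zip_nil_right, List.map_cons, List.map_nil, List.cons_append, List.nil_append] at h
  simp [tri] at h
  simp only at g0 g1 g2 g3 g4 g5
  rw [evalR_shaped hp3 g0.1, evalR_shaped hp3 g1.1, evalR_shaped hp3 g2.1, evalR_shaped hp3 g3.1,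
    evalR_shaped hp3 g4.1, evalR_shaped hp3 g5.1] at h
  have h0 : lossA d 0 = 0 := by simp [lossA]
  have h2 : lossA d 2 = 2 * u := by simp only [hu, lossA]; split <;> rfl
  have hu2 : 2 * u ≤ d.2.2.2 := h2 ▸ g3.2
  rw [h0, h2, ← hu] at h
  obtain ⟨m, hm⟩ := Nat.exists_eq_add_of_le hu2
  have i1 : d.2.2.2 - u = u + m := by omega
  have i2 : d.2.2.2 - 2 * u = m := by omega
  rw [i1, i2, Nat.sub_zero, hm] at h
  have key : ((q + 1 : ℕ) : ℝ) * (1 - p 3) ^ (2 * u + m) *
      form6 ([e0, e1, e2, e3, e4, e5].map (val p)) H φ ≥ 0 := by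
    refine h.trans (le_of_eq ?_)
    simp only [form6, List.map_cons, List.map_nil, List.getD_cons_zero, List.getD_cons_succ,
      pow_add, two_mul]
    ring
  exact nonneg_of_mul_nonneg_right key (by positivity)

lemma map_shift {p : Fin 4 → ℝ} (hp : p 3 < 1) (t : ℚ) : ∀ l : List HP,
    (shift t l).map (val p) = shift t (l.map (val p))
  | [] | [_] | [_, _] | [_, _, _] | [_, _, _, _] | [_, _, _, _, _] => rfl
  | [a, b, c, d, e, f] => by
    simp only [shift, List.map_cons, List.map_nil, val_add hp, val_mul, val_lit]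
  | _ :: _ :: _ :: _ :: _ :: _ :: _ :: _ => rfl

lemma form6_shift (t : ℚ) (H φ : ℝ) : ∀ {l : List ℝ}, l.length = 6 →
    form6 (shift t l) H φ = form6 l H (φ + t)
  | [a, b, c, d, e, f], _ => by
    simp only [shift, form6, List.getD_cons_zero, List.getD_cons_succ, Lit.lit]
    push_cast
    ring

/-- The contact condition at a point of a checked chart away from the singular point. -/
theorem contact_of_form6 (hV : VecWt V) {p : Fin 4 → ℝ} (hp3 : p 3 < 1)
    (h6 : ∀ H φ : ℝ, (S.sh = 0 → 0 ≤ φ) → 0 ≤ form6 ((S.entries V c).map (val p)) H φ)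
    {f g A : ℝ} (hE : (S.E.map (val p)).At f g A)
    (hG : (S.G.map (val p)).At (S.E.map (val p)).r f g) (hD : 0 < eLev f + eLev g)
    (hr : val p S.E.r ≠ 0) (H φ : ℝ) (hφ : 0 ≤ φ) :
    c.eps * (A + (f - g) ^ 2) ^ 4 * (1 + A) ^ 2 ≤ contactForm V f g A A c.al c.be H φ := by
  set r := (S.E.map (val p)).r with hrdef
  have hr0 : r ≠ 0 := hr
  have hD' : 0 < (S.G.map (val p)).D := hG.hD ▸ hD
  have e := contactForm_eq hV hE hG hD'.ne' c (H / r) (φ / r ^ 2)
  rw [mul_div_cancel₀ _ hr0, mul_div_cancel₀ _ (pow_ne_zero 2 hr0)] at e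
  have h := h6 (H / r) (φ / r ^ 2 - S.sh) (fun hs => by rw [hs]; simpa using div_nonneg hφ (sq_nonneg r))
  rw [Spec.entries, map_shift hp3, form6_shift, map_entries (isLitHom_val hp3), sub_add_cancel] at h
  · have h2 : 0 ≤ r ^ 8 * form6 (entries V (S.E.map (val p)) (S.G.map (val p)) c) (H / r)
        (φ / r ^ 2) := mul_nonneg (by positivity) h
    rw [← e] at h2
    have := nonneg_of_mul_nonneg_right h2 (by positivity)
    linarith
  · simp [entries]

end

end Vale.Agent.P211.Cert.Contact
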